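import Vale.Agent.P284.H494.N.Norm3
import Vale.Agent.P284.H988.N.Defs

/-!
# P284 (helper494), program N, module N3: `NPkg0` for the subgroup `G`, transport, the theorem
-/

open Function

noncomputable section

namespace Vale.Agent.P284.H494.N

open Vale.Agent.P272.K Vale.Agent.P284.H894.V Vale.Agent.P284.H213.Grp Vale.Agent.P284.H988.N

section
variable {Γ : Type} [Group Γ] {G : Subgroup Γ} {q : ℕ} {A : Γ →* (Cm q ≃ₗ[ℂ] Cm q)} {c : Γ → Cm q}
  {K : Subgroup Γ}

/-- subgroups of `K`, seen in `G` -/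
theorem fi_sub {K' : Subgroup G} (hKG : K ≤ G)
    (h : (K'.subgroupOf (K.subgroupOf G)).FiniteIndex) :
    ((K'.map G.subtype).subgroupOf K).FiniteIndex := by
  have h1 := fi_map G.subtype h
  have h2 : (K.subgroupOf G).map G.subtype = K := by
    rw [Subgroup.subgroupOf_map_subtype, inf_eq_left.2 hKG]
  rwa [h2] at h1

theorem fi_sub' {K' : Subgroup G} (h : ((K'.map G.subtype).subgroupOf K).FiniteIndex) :
    (K'.subgroupOf (K.subgroupOf G)).FiniteIndex := by
  have h1 := fi_comap G.subtype h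
  have h2 : (K'.map G.subtype).comap G.subtype = K' :=
    Subgroup.comap_map_eq_self_of_injective (Subgroup.subtype_injective G) K'
  rwa [h2] at h1

/-- the data for the group `G` -/
theorem NPkgA.to0 (h : NPkgA Γ G q A c K) :
    NPkg0 G q (fun g : G => c g) (K.subgroupOf G) := by
  have hKn := h.normal
  let e : K.subgroupOf G ≃* K := Subgroup.subgroupOfEquivOfLe h.le
  refine ⟨h.dat.lat, inferInstance, ?_, ?_, fun g hg => h.sub g hg, ?_, ?_, ?_, ?_, ?_⟩
  · have := h.fg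
    exact Group.fg_of_surjective (f := e.symm.toMonoidHom) e.symm.surjective
  · have := h.inf
    exact Infinite.of_injective e.symm e.symm.injective
  · obtain ⟨F, hF, hFG, hc⟩ := h.fi
    refine ⟨{x | (x : Γ) ∈ F}, hF.preimage (Subtype.val_injective.injOn), fun g hg => ?_⟩
    obtain ⟨f, hf, hfg⟩ := hc g g.2 hg
    exact ⟨⟨f, hFG f hf⟩, hf, hfg⟩
  · exact fun hv => h.nvi (virtInd_congr e.symm hv)
  · intro K' hK' hfi g hg0 hgk
    refine Subtype.ext ?_
    refine h.cent (K'.map G.subtype) ?_ (fi_sub h.le hfi) g g.2 hg0 ?_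
    · rintro _ ⟨x, hx, rfl⟩
      exact hK' hx
    · rintro _ ⟨x, hx, rfl⟩
      exact congrArg Subtype.val (hgk x hx)
  · intro g hg x
    refine Subtype.ext ?_
    refine h.central g g.2 (fun k hk => ?_) x x.2
    exact congrArg Subtype.val (hg ⟨k, h.le hk⟩ hk)
  · intro W hW
    refine h.max W fun v hv => ?_
    refine Submodule.span_mono (Set.inter_subset_inter_left _ ?_) (hW v hv)
    rintro _ ⟨g, hg, rfl⟩
    exact ⟨g, g.2, fun k hk => congrArg Subtype.val (hg ⟨k, h.le hk⟩ hk), rfl⟩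

/-- `just` for the subgroups of `G` which are stable under the conjugations of `Γ` -/
theorem NPkgA.just_sub (h : NPkgA Γ G q A c K) (N₀ : Subgroup G)
    (hst : ∀ (x : Γ) (g : G), g ∈ N₀ → ∃ g' ∈ N₀, (g' : Γ) = x * g * x⁻¹)
    (hle : N₀ ≤ K.subgroupOf G) (hne : N₀ ≠ ⊥) :
    (N₀.subgroupOf (K.subgroupOf G)).FiniteIndex := by
  refine fi_sub' (h.just _ ⟨?_⟩ ?_ ?_)
  · rintro _ ⟨g, hg, rfl⟩ x
    obtain ⟨g', hg', he⟩ := hst x g hg
    exact ⟨g', hg', he⟩
  · rintro _ ⟨g, hg, rfl⟩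
    exact hle hg
  · intro h0
    apply hne
    rwa [Subgroup.map_eq_bot_iff_of_injective _ (Subgroup.subtype_injective G)] at h0

end

section congr
variable {Γ Γ' : Type} [Group Γ] [Group Γ'] {G : Subgroup Γ} {q : ℕ} {A : Γ →* (Cm q ≃ₗ[ℂ] Cm q)}
  {c : Γ → Cm q} {K : Subgroup Γ}

theorem ADat.congr (e : Γ' ≃* Γ) (h : ADat Γ G q A c) :
    ADat Γ' (G.comap e.toMonoidHom) q (A.comp e.toMonoidHom) (fun g => c (e g)) := by
  have hmem : ∀ b, b ∈ G.comap e.toMonoidHom ↔ e b ∈ G := fun b => Iff.rfl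
  let f : G.comap e.toMonoidHom ≃* G :=
    MulEquiv.ofBijective (e.toMonoidHom.subgroupComap G)
      ⟨fun x y hxy => Subtype.ext (e.injective (congrArg Subtype.val hxy)),
        fun y => ⟨⟨e.symm y, by
          show e (e.symm y) ∈ G
          rw [e.apply_symm_apply]; exact y.2⟩, Subtype.ext (e.apply_symm_apply y)⟩⟩
  refine ⟨h.normal.comap _, ?_, fun g x => ?_, fun g hg => ?_, ?_⟩
  · have h1 := h.fi
    refine ⟨?_⟩
    rw [Subgroup.index_comap_of_surjective (f := e.toMonoidHom) G e.surjective]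
    exact h1.index_ne_zero
  · show c (e (g * x)) = A (e g) (c (e x)) + c (e g)
    rw [map_mul, h.coc]
  · exact h.one _ hg
  · exact h.lat.congr f

theorem NPkgA.congr (e : Γ' ≃* Γ) (h : NPkgA Γ G q A c K) :
    NPkgA Γ' (G.comap e.toMonoidHom) q (A.comp e.toMonoidHom) (fun g => c (e g))
      (K.comap e.toMonoidHom) := by
  let f : K.comap e.toMonoidHom ≃* K :=
    MulEquiv.ofBijective (e.toMonoidHom.subgroupComap K)
      ⟨fun x y hxy => Subtype.ext (e.injective (congrArg Subtype.val hxy)),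
        fun y => ⟨⟨e.symm y, by
          show e (e.symm y) ∈ K
          rw [e.apply_symm_apply]; exact y.2⟩, Subtype.ext (e.apply_symm_apply y)⟩⟩
  have hmem : ∀ b, b ∈ K.comap e.toMonoidHom ↔ e b ∈ K := fun b => Iff.rfl
  have hmap : ∀ M : Subgroup Γ', ∀ a, a ∈ M.map e.toMonoidHom ↔ e.symm a ∈ M := by
    intro M a
    constructor
    · rintro ⟨b, hb, rfl⟩
      show e.symm (e b) ∈ M
      rw [e.symm_apply_apply]; exact hb
    · intro ha
      exact ⟨_, ha, e.apply_symm_apply a⟩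
  have hcomap : ∀ M : Subgroup Γ', (M.map e.toMonoidHom).comap e.toMonoidHom = M := by
    intro M
    ext b
    rw [Subgroup.mem_comap, hmap]
    show e.symm (e b) ∈ M ↔ _
    rw [e.symm_apply_apply]
  have hcommK : ∀ g, (∀ k ∈ K.comap e.toMonoidHom, g * k = k * g) → ∀ k ∈ K, e g * k = k * e g := by
    intro g hg k hk
    have h2 := hg (e.symm k) (by rw [hmem, e.apply_symm_apply]; exact hk)
    have h3 := congrArg e h2
    rwa [map_mul, map_mul, e.apply_symm_apply] at h3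
  refine ⟨h.dat.congr e, fun g hg => h.le hg, h.normal.comap _, ?_, ?_, fun g hg => h.sub _ hg, ?_,
    ?_, ?_, ?_, ?_, ?_⟩
  · have := h.fg
    exact Group.fg_of_surjective (f := f.symm.toMonoidHom) f.symm.surjective
  · have := h.inf
    exact Infinite.of_injective f.symm f.symm.injective
  · obtain ⟨F, hF, hFG, hc⟩ := h.fi
    refine ⟨e.symm '' F, hF.image _, ?_, fun g hgG hg => ?_⟩
    · rintro _ ⟨a, ha, rfl⟩
      show e (e.symm a) ∈ G
      rw [e.apply_symm_apply]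
      exact hFG a ha
    obtain ⟨a, ha, hag⟩ := hc (e g) hgG hg
    refine ⟨e.symm a, ⟨a, ha, rfl⟩, ?_⟩
    rw [hmem, map_mul, _root_.map_inv, e.apply_symm_apply]
    exact hag
  · intro hv
    exact h.nvi (virtInd_congr f.symm hv)
  · intro M hMn hMK hM0
    have h1 := h.just (M.map e.toMonoidHom) (hMn.map _ e.surjective)
      (by
        rintro _ ⟨b, hb, rfl⟩
        exact hMK hb)
      (by
        intro h0
        apply hM0
        rw [Subgroup.map_eq_bot_iff_of_injective _ e.injective] at h0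
        exact h0)
    have h2 := fi_comap e.toMonoidHom h1
    rwa [hcomap] at h2
  · intro K' hK' hfi g hgG hg hgk
    have h1 := fi_map e.toMonoidHom hfi
    have h3 : (K.comap e.toMonoidHom).map e.toMonoidHom = K :=
      Subgroup.map_comap_eq_self_of_surjective e.surjective K
    rw [h3] at h1
    have h2 := h.cent (K'.map e.toMonoidHom) (by
      rintro _ ⟨b, hb, rfl⟩
      exact hK' hb) h1 (e g) hgG hg (by
        rintro _ ⟨b, hb, rfl⟩
        show e g * e b = e b * e g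
        rw [← map_mul, hgk b hb, map_mul])
    exact (MulEquiv.map_eq_one_iff e).1 h2
  · intro g hgG hg x hx
    have h1 := h.central (e g) hgG (hcommK g hg) (e x) hx
    rw [← map_mul, ← map_mul] at h1
    exact e.injective h1
  · intro W hW
    refine h.max W fun v hv => ?_
    refine Submodule.span_mono (Set.inter_subset_inter_left _ ?_) (hW v hv)
    rintro _ ⟨g, hgG, hg, rfl⟩
    exact ⟨e g, hgG, hcommK g hg, rfl⟩

end congr

/-- **N3 (NORM-N).** -/
theorem normN {Γ : Type} [Group Γ] {G : Subgroup Γ} {N : ℕ} {A : Γ →* (Cm N ≃ₗ[ℂ] Cm N)}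
    {c : Γ → Cm N} (h : ADat Γ G N A c) (K : Subgroup Γ) (hK : ∀ g, g ∈ K ↔ g ∈ G ∧ c g = 0)
    (hfg : Group.FG K) (hinf : Infinite K) (hnvi : ¬ VirtIndicable K) :
    ∃ (M : Subgroup Γ) (_ : M.Normal) (q : ℕ) (L : Cm N →ₗ[ℂ] Cm q)
      (A₁ : Γ ⧸ M →* (Cm q ≃ₗ[ℂ] Cm q)) (c₁ : Γ ⧸ M → Cm q), M ≤ G ∧ Surjective L ∧
      (∀ g : Γ, c₁ (g : Γ ⧸ M) = L (c g)) ∧ (∀ (g : Γ) v, L (A g v) = A₁ (g : Γ ⧸ M) (L v)) ∧
      NPkgA (Γ ⧸ M) (G.map (QuotientGroup.mk' M)) q A₁ c₁ (K.map (QuotientGroup.mk' M)) := by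
  obtain ⟨M₀, hM₀n, A₀, c₀, hM₀K, hc₀, hA₀, hpre⟩ := exists_preN h K hK hfg hinf hnvi
  obtain ⟨q, L, hL, hst, hlat, hgood, hmax⟩ := exists_torusN hpre.dat _ hpre.mem
  obtain ⟨M₁, hM₁n, A₁, c₁, hM₁G, hM₁0, hc₁, hA₁, hpkg⟩ :=
    npkg_ofN hpre L hL hst hlat hgood hmax
  have hKG : K ≤ G := fun g hg => ((hK g).1 hg).1
  -- the double quotient
  let π := QuotientGroup.mk' M₀
  let M : Subgroup Γ := M₁.comap π
  have hMn : M.Normal := hM₁n.comap π
  have hle : M₀ ≤ M := by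
    intro g hg
    show π g ∈ M₁
    have : π g = 1 := (QuotientGroup.eq_one_iff g).2 hg
    rw [this]; exact M₁.one_mem
  have hMG : M ≤ G := by
    intro g hg
    have h1 : π g ∈ G.map π := hM₁G hg
    obtain ⟨x, hx, hxg⟩ := h1
    have h2 : x⁻¹ * g ∈ M₀ := QuotientGroup.eq.1 hxg
    have h3 := G.mul_mem hx (hKG (hM₀K h2))
    rwa [mul_inv_cancel_left] at h3
  let f : Γ →* (Γ ⧸ M₀) ⧸ M₁ := (QuotientGroup.mk' M₁).comp π
  have hf : Surjective f := (QuotientGroup.mk'_surjective M₁).comp (QuotientGroup.mk'_surjective M₀)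
  have hfk : f.ker = M := by
    rw [← MonoidHom.comap_bot, ← Subgroup.comap_comap, MonoidHom.comap_bot, QuotientGroup.ker_mk']
  let e : Γ ⧸ M ≃* (Γ ⧸ M₀) ⧸ M₁ := (QuotientGroup.quotientMulEquivOfEq hfk.symm).trans
    (QuotientGroup.quotientKerEquivOfSurjective f hf)
  have he : ∀ g : Γ, e (g : Γ ⧸ M) = f g := fun g => rfl
  have hmap : ∀ P : Subgroup Γ, ((P.map π).map (QuotientGroup.mk' M₁)).comap e.toMonoidHom =
      P.map (QuotientGroup.mk' M) := by
    intro P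
    ext x
    obtain ⟨g, rfl⟩ := QuotientGroup.mk_surjective x
    constructor
    · rintro ⟨_, ⟨y, hy, rfl⟩, hyg⟩
      have h1 : e (y : Γ ⧸ M) = e (g : Γ ⧸ M) := hyg
      exact ⟨y, hy, e.injective h1⟩
    · rintro ⟨y, hy, hyg⟩
      have h1 : (y : Γ ⧸ M) = (g : Γ ⧸ M) := hyg
      refine ⟨π y, ⟨y, hy, rfl⟩, ?_⟩
      show e (y : Γ ⧸ M) = e (g : Γ ⧸ M)
      rw [h1]
  have hP := hpkg.congr e
  rw [hmap G, hmap K] at hP
  refine ⟨M, hMn, q, L, _, _, hMG, hL, fun g => ?_, fun g v => ?_, hP⟩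
  · show c₁ ((π g : Γ ⧸ M₀) : (Γ ⧸ M₀) ⧸ M₁) = _
    rw [hc₁]
    show L (c₀ (g : Γ ⧸ M₀)) = _
    rw [hc₀]
  · show _ = A₁ ((π g : Γ ⧸ M₀) : (Γ ⧸ M₀) ⧸ M₁) (L v)
    rw [← hA₁]
    exact congrArg L (hA₀ g v).symm

end Vale.Agent.P284.H494.N
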