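import Vale.Agent.P284.H378.CS
import Vale.Agent.P284.H174.GoodD
import Vale.Agent.P284.H174.Fac
import Vale.Agent.P284.H573.HNF
import Vale.Agent.P284.H619.Nul1
import Vale.Agent.P284.H221.Rk

/-!
# P284 (helper494), program N, module N7a: normal forms with the same leaves

`NFL`: the normal form `v = (det db)^m γ(b)` at `y`, where the kernel of `db` is the common kernel of `dF`
and `Θ`. Two such normal forms have coordinates `b`, `b' = ψ(b)` with `ψ` biholomorphic.
-/

open scoped Manifold ContDiff Topology InnerProductSpace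
open Filter Set Metric

noncomputable section

namespace Vale.Agent.P284.H494.N

open Vale.Agent.P272.K Vale.Agent.P284.H894 Vale.Agent.P284.H894.G Vale.Agent.P284.H894.V
  Vale.Agent.P284.H894.W Vale.Agent.P284.H573 Vale.Agent.P284.H619 Vale.Agent.P284.H625
  Vale.Agent.P284.H378 Vale.Agent.P284.H174.GD

section
variable {n q r m : ℕ} {X E Γ W H : Type} [TopologicalSpace X] [ChartedSpace (Cm n) X]
  [TopologicalSpace E] [Group Γ] [MulAction Γ E]
  [NormedAddCommGroup W] [InnerProductSpace ℂ W] [NormedAddCommGroup H] [InnerProductSpace ℂ H]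
  {p : E → X} {F : E → Cm q} {Θ : E → Chart n X → (Cm n →L[ℂ] W)}

/-- The normal form at `y`, with leaves the common kernel of `dF` and `Θ`. -/
structure NFL {R : ℕ} (m : ℕ) (p : E → X) (F : E → Cm q) (Θ : E → Chart n X → (Cm n →L[ℂ] W))
    (v : E → Chart n X → (Fin R → Cm n) → H) (y : E) (e : Chart n X) (b : Cm n → Cm R)
    (γ : Cm R → H) : Prop where
  nf : IsNF m p v y e b γ
  reg : ∀ᶠ y' in 𝓝 y, Reg (n := n) p F y'
  ker : ∀ᶠ y' in 𝓝 y, ∀ ξ, fderiv ℂ b (e (p y')) ξ = 0 ↔ ξ ∈ VS p F y' e ∧ Θ y' e ξ = 0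

/-- `tq` is linear. -/
def tqL' (q r : ℕ) : Cm (q + r) →L[ℂ] Cm q :=
  LinearMap.toContinuousLinearMap
    { toFun := tq
      map_add' := fun _ _ => rfl
      map_smul' := fun _ _ => rfl }

theorem tqL'_apply (q r : ℕ) (x : Cm (q + r)) : tqL' q r x = tq x := rfl

theorem tq_surj (q r : ℕ) : Function.Surjective (tq : Cm (q + r) → Cm q) := fun u =>
  ⟨Fin.addCases u 0, by funext j; simp [tq]⟩

/-- a point where `F` is analytic with surjective derivative is regular -/
theorem reg_of_an [IsManifold 𝓘(ℂ, Cm n) ω X] (hp : IsCoveringMap p) {y : E} {e : Chart n X}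
    (he : At e (p y)) {f : Cm n → Cm q} (hf : ∀ᶠ y' in 𝓝 y, F y' = f (e (p y')))
    (hfan : AnalyticAt ℂ f (e (p y))) (hs : Function.Surjective (fderiv ℂ f (e (p y)))) :
    Reg (n := n) p F y := by
  intro e' f' he' hf'
  have h1 : ∀ᶠ z in 𝓝 (e' (p y)), f' z = f (e (e'.symm z)) := by
    rw [← ev_iff hp he']
    filter_upwards [hf, hf', at_ev hp he'] with y' k1 k2 k3
    rw [← k2, k1, e'.left_inv k3.2]
  have h3 : e (e'.symm (e' (p y))) = e (p y) := by rw [e'.left_inv he'.2]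
  have h4 : HasFDerivAt (fun z => f (e (e'.symm z)))
      ((fderiv ℂ f (e (p y))).comp (fderiv ℂ (fun z => e (e'.symm z)) (e' (p y)))) (e' (p y)) := by
    refine HasFDerivAt.comp (e' (p y)) (g := f) (f := fun z => e (e'.symm z)) ?_
      (transition_differentiableAt he' he).hasFDerivAt
    rw [h3]
    exact hfan.differentiableAt.hasFDerivAt
  rw [Filter.EventuallyEq.fderiv_eq h1, h4.fderiv]
  exact hs.comp (H221.transition_surjective he' he)

/-- the leaf chart gives such a normal form -/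
theorem NFL.of_LC [CompleteSpace W] [IsManifold 𝓘(ℂ, Cm n) ω X] (hp : IsCoveringMap p)
    {v : E → Chart n X → (Fin (q + r) → Cm n) → H}
    {U : Γ → (H →ₗᵢ[ℂ] H)} {π : Γ →* (W ≃ₗᵢ[ℂ] W)} {N : Cm 0 →L[ℂ] Cm q} {y : E} {e : Chart n X}
    {b : Cm n → Cm (q + r)} {F0 : Cm (q + r) → W} {β : Cm (q + r) → Cm (q + r)}
    {γ : Cm (q + r) → H} {τ : Cm (q + r) → Cm q}
    (h : LC p F m v U π Θ N y e b F0 β γ τ) :
    NFL m p F Θ v y e b (fun x => γ (β x)) := by
  have hfd : ∀ z, DifferentiableAt ℂ b z → fderiv ℂ (fun z => tq (b z)) z =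
      (tqL' q r).comp (fderiv ℂ b z) := by
    intro z hz
    have h1 : HasFDerivAt (fun z => tq (b z)) ((tqL' q r).comp (fderiv ℂ b z)) z :=
      (tqL' q r).hasFDerivAt.comp z hz.hasFDerivAt
    exact h1.fderiv
  have hban : ∀ᶠ y' in 𝓝 y, AnalyticAt ℂ b (e (p y')) :=
    (tendsto_ep hp h.mem).eventually h.ban.eventually_analyticAt
  have hbs : ∀ᶠ y' in 𝓝 y, Function.Surjective (fderiv ℂ b (e (p y'))) :=
    (tendsto_ep hp h.mem).eventually
      (h.ban.fderiv.continuousAt.eventually_mem (surj_isOpen.mem_nhds h.bsurj))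
  refine ⟨⟨h.mem, h.ban, h.bsurj, AnalyticAt.comp (g := γ) (f := β) h.γan h.βan,
    ⟨h.imm.1, fun η a hη => ?_⟩, h.v_eq⟩, ?_, ?_⟩
  · have h1 : fderiv ℂ (fun x => γ (β x)) (b (e (p y))) =
        (fderiv ℂ γ (β (b (e (p y))))).comp (fderiv ℂ β (b (e (p y)))) :=
      fderiv_comp (𝕜 := ℂ) (b (e (p y))) (g := γ) (f := β) h.γan.differentiableAt
        h.βan.differentiableAt
    rw [h1] at hη
    have h2 := h.imm.2 (fderiv ℂ β (b (e (p y))) η) a hη
    have h3 : Function.Injective (fderiv ℂ β (b (e (p y)))) :=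
      (LinearMap.injective_iff_surjective_of_finrank_eq_finrank
        (f := (fderiv ℂ β (b (e (p y))) : Cm (q + r) →ₗ[ℂ] Cm (q + r))) rfl).2
        h.βsurj
    exact h3 (by rw [h2, map_zero])
  · filter_upwards [h.t_eq.eventually_nhds, hban, hbs, at_ev hp h.mem] with y' h1 h2 h3 h4
    refine reg_of_an hp h4 (f := fun z => tq (b z)) h1 ?_ ?_
    · exact ((tqL' q r).analyticAt _).comp h2
    · rw [hfd _ h2.differentiableAt]
      exact (tq_surj q r).comp h3
  · -- injectivity of `(dF0, tq)`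
    have hinj : ∀ᶠ y' in 𝓝 y, ∀ ζ : Cm (q + r), tq ζ = 0 →
        fderiv ℂ F0 (b (e (p y'))) ζ = 0 → ζ = 0 := by
      set P : E → (Cm (q + r) →L[ℂ] W × Cm q) := fun y' =>
        (ContinuousLinearMap.inl ℂ W (Cm q)).comp (fderiv ℂ F0 (b (e (p y')))) +
          (ContinuousLinearMap.inr ℂ W (Cm q)).comp (tqL' q r) with hP
      have hPa : ∀ y' ζ, P y' ζ = (fderiv ℂ F0 (b (e (p y'))) ζ, tq ζ) := by
        intro y' ζ
        show ((fderiv ℂ F0 (b (e (p y'))) ζ, (0 : Cm q)) : W × Cm q) + ((0 : W), tqL' q r ζ) = _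
        rw [Prod.mk_add_mk, add_zero, zero_add]
        rfl
      have hc : ContinuousAt P y := by
        have h1 : ContinuousAt (fun z => fderiv ℂ F0 (b z)) (e (p y)) :=
          ContinuousAt.comp (g := fderiv ℂ F0) (f := b) h.F0an.fderiv.continuousAt
            h.ban.continuousAt
        have h2 : ContinuousAt (fun y' => fderiv ℂ F0 (b (e (p y')))) y :=
          h1.tendsto.comp (tendsto_ep hp h.mem)
        exact (continuousAt_const.clm_comp h2).add continuousAt_const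
      have hi : Function.Injective (P y) := by
        rw [injective_iff_map_eq_zero]
        intro ζ hζ
        rw [hPa] at hζ
        exact h.F0imm ζ (congrArg Prod.snd hζ) (congrArg Prod.fst hζ)
      filter_upwards [hc.eventually_mem (ContinuousLinearMap.isOpen_injective.mem_nhds hi)]
        with y' hy' ζ h1 h2
      have h3 := (injective_iff_map_eq_zero _).1 hy' ζ
      exact h3 (by rw [hPa, h2, h1]; rfl)
    have hF0an : ∀ᶠ y' in 𝓝 y, AnalyticAt ℂ F0 (b (e (p y'))) := by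
      have h1 : Tendsto (fun y' => b (e (p y'))) (𝓝 y) (𝓝 (b (e (p y)))) :=
        h.ban.continuousAt.tendsto.comp (tendsto_ep hp h.mem)
      exact h1.eventually h.F0an.eventually_analyticAt
    filter_upwards [h.t_eq.eventually_nhds, hban, h.pot, at_ev hp h.mem, hinj, hF0an]
      with y' h1 h2 h3 h4 h5 h6 ξ
    have h7 : ξ ∈ VS p F y' e ↔ tq (fderiv ℂ b (e (p y')) ξ) = 0 := by
      rw [mem_VS hp h4 (f := fun z => tq (b z)) h1, hfd _ h2.differentiableAt]
      rfl
    have h8 : fderiv ℂ (fun z => F0 (b z)) (e (p y')) =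
        (fderiv ℂ F0 (b (e (p y')))).comp (fderiv ℂ b (e (p y'))) :=
      fderiv_comp (𝕜 := ℂ) (e (p y')) (g := F0) (f := b) h6.differentiableAt h2.differentiableAt
    constructor
    · intro h9
      have h10 : ξ ∈ VS p F y' e := by
        rw [h7, h9]; rfl
      refine ⟨h10, ?_⟩
      rw [h3 ξ h10, h8]
      show fderiv ℂ F0 _ (fderiv ℂ b _ ξ) = 0
      rw [h9, map_zero]
    · rintro ⟨h9, h10⟩
      refine h5 _ (h7.1 h9) ?_
      rw [h3 ξ h9, h8] at h10
      exact h10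

/-- the translate of a germ -/
theorem ev_map {σ : E → E} (hσ : Continuous σ) {y : E} {P : E → Prop} (h : ∀ᶠ y' in 𝓝 (σ y), P y') :
    ∀ᶠ y' in 𝓝 y, P (σ y') := (hσ.tendsto y).eventually h

theorem VS_comp (hp : IsCoveringMap p) (hF : HolE n p F) {σ : E → E} (hσ : Continuous σ)
    (hσp : ∀ y, p (σ y) = p y) {A : Cm q ≃L[ℂ] Cm q} {a : Cm q}
    (hσF : ∀ y, F (σ y) = A (F y) + a) {y : E} {e : Chart n X} (he : At e (p y)) (ξ : Cm n) :
    ξ ∈ VS p F (σ y) e ↔ ξ ∈ VS p F y e := by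
  have he' : At e (p (σ y)) := by rw [hσp]; exact he
  obtain ⟨f, hf, hfan⟩ := hF (σ y) e he'
  rw [hσp] at hfan
  have hf' : ∀ᶠ y' in 𝓝 y, F y' = A.symm (f (e (p y')) - a) := by
    filter_upwards [ev_map hσ hf] with y' h1
    rw [hσp] at h1
    rw [← h1, hσF, add_sub_cancel_right, A.symm_apply_apply]
  rw [mem_VS hp he' hf, mem_VS hp he (f := fun z => A.symm (f z - a)) hf', hσp]
  have h2 : HasFDerivAt (fun z => A.symm (f z - a))
      ((A.symm : Cm q →L[ℂ] Cm q).comp (fderiv ℂ f (e (p y)))) (e (p y)) :=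
    (A.symm : Cm q →L[ℂ] Cm q).hasFDerivAt.comp _ (hfan.differentiableAt.hasFDerivAt.sub_const a)
  rw [h2.fderiv]
  constructor
  · intro h
    show A.symm (fderiv ℂ f (e (p y)) ξ) = 0
    rw [h, map_zero]
  · intro h
    exact (A.symm.map_eq_zero_iff).1 h

/-- the translate of such a normal form -/
theorem NFL.comp {R : ℕ} {v : E → Chart n X → (Fin R → Cm n) → H} (hp : IsCoveringMap p)
    (hF : HolE n p F) {σ : E → E} (hσ : Continuous σ)
    (hσp : ∀ y, p (σ y) = p y) {A : Cm q ≃L[ℂ] Cm q} {a : Cm q}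
    (hσF : ∀ y, F (σ y) = A (F y) + a) [IsManifold 𝓘(ℂ, Cm n) ω X]
    {V : W →ₗᵢ[ℂ] W} (hV : ∀ y e, Reg (n := n) p F y → At e (p y) → ∀ ξ ∈ VS p F y e,
      Θ (σ y) e ξ = V (Θ y e ξ)) {y : E} {e : Chart n X} {b : Cm n → Cm R} {γ : Cm R → H}
    (h : NFL m p F Θ v (σ y) e b γ) : NFL m p F Θ (fun y e ξ => v (σ y) e ξ) y e b γ := by
  have he : At e (p y) := by rw [← hσp]; exact h.nf.mem
  have hreg : ∀ᶠ y' in 𝓝 y, Reg (n := n) p F y' := by
    filter_upwards [ev_map hσ h.reg, at_ev hp he] with y' h1 h2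
    obtain ⟨f, hf, hfan⟩ := hF (σ y') e (by rw [hσp]; exact h2)
    have hs := h1 e f (by rw [hσp]; exact h2) hf
    rw [hσp] at hs hfan
    have hf' : ∀ᶠ y'' in 𝓝 y', F y'' = A.symm (f (e (p y'')) - a) := by
      filter_upwards [ev_map hσ hf] with y'' h1
      rw [hσp] at h1
      rw [← h1, hσF, add_sub_cancel_right, A.symm_apply_apply]
    refine reg_of_an hp h2 (f := fun z => A.symm (f z - a)) hf' ?_ ?_
    · exact ((A.symm : Cm q →L[ℂ] Cm q).analyticAt _).comp (hfan.sub analyticAt_const)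
    · have h2 : HasFDerivAt (fun z => A.symm (f z - a))
          ((A.symm : Cm q →L[ℂ] Cm q).comp (fderiv ℂ f (e (p y')))) (e (p y')) :=
        (A.symm : Cm q →L[ℂ] Cm q).hasFDerivAt.comp _
          (hfan.differentiableAt.hasFDerivAt.sub_const a)
      rw [h2.fderiv]
      exact A.symm.surjective.comp hs
  refine ⟨⟨he, ?_, ?_, ?_, ?_, ?_⟩, hreg, ?_⟩
  · have := h.nf.ban
    rwa [hσp] at this
  · have := h.nf.bsurj
    rwa [hσp] at this
  · have := h.nf.γan
    rwa [hσp] at this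
  · have := h.nf.imm
    rwa [hσp] at this
  · filter_upwards [ev_map hσ h.nf.nf] with y' h1
    rw [hσp] at h1
    exact h1
  · filter_upwards [ev_map hσ h.ker, at_ev hp he, hreg] with y' h1 h2 h3 ξ
    rw [hσp] at h1
    rw [h1 ξ, VS_comp hp hF hσ hσp hσF h2]
    constructor
    · rintro ⟨h4, h5⟩
      refine ⟨h4, ?_⟩
      rw [hV y' e h3 h2 ξ h4] at h5
      exact (map_eq_zero_iff V V.injective).1 h5
    · rintro ⟨h4, h5⟩
      refine ⟨h4, ?_⟩
      rw [hV y' e h3 h2 ξ h4, h5, map_zero]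

end

end Vale.Agent.P284.H494.N
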