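import Vale.Agent.P284.H494.N.Leaf1
import Vale.Agent.P284.H494.HF
import Vale.Agent.P284.H812.NSF4

/-!
# P284 (helper494), program N, module N7a: comparison of two normal forms with the same leaves
-/

open scoped Manifold ContDiff Topology InnerProductSpace
open Filter Set Metric

noncomputable section

namespace Vale.Agent.P284.H494.N

open Vale.Agent.P272.K Vale.Agent.P284.H894 Vale.Agent.P284.H894.G Vale.Agent.P284.H894.V
  Vale.Agent.P284.H894.W Vale.Agent.P284.H573 Vale.Agent.P284.H619 Vale.Agent.P284.H625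
  Vale.Agent.P284.H378 Vale.Agent.P284.H174.GD

section
variable {n q r m R : ℕ} {X E Γ W H H' : Type} [TopologicalSpace X] [ChartedSpace (Cm n) X]
  [TopologicalSpace E] [Group Γ] [MulAction Γ E]
  [NormedAddCommGroup W] [InnerProductSpace ℂ W] [NormedAddCommGroup H] [InnerProductSpace ℂ H]
  [NormedAddCommGroup H'] [InnerProductSpace ℂ H']
  {p : E → X} {F : E → Cm q} {Θ : E → Chart n X → (Cm n →L[ℂ] W)}

/-- `γ₁ = (det ψ')^m γ' ∘ ψ` -/
theorem imm_pull [CompleteSpace H'] {γ' : Cm R → H'} {ψ : Cm R → Cm R} {x : Cm R}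
    (hγ : AnalyticAt ℂ γ' (ψ x)) (hψ : AnalyticAt ℂ ψ x)
    (hd : (fderiv ℂ ψ x).det ≠ 0) (hi : ImmAt γ' (ψ x)) (m : ℕ) :
    AnalyticAt ℂ (fun x => (fderiv ℂ ψ x).det ^ m • γ' (ψ x)) x ∧
      ImmAt (fun x => (fderiv ℂ ψ x).det ^ m • γ' (ψ x)) x := by
  have hj : AnalyticAt ℂ (fun x => (fderiv ℂ ψ x).det ^ m) x := (det_an hψ).pow m
  have hg : AnalyticAt ℂ (fun x => γ' (ψ x)) x := AnalyticAt.comp (g := γ') (f := ψ) hγ hψ
  refine ⟨hj.smul hg, smul_ne_zero (pow_ne_zero m hd) hi.1, fun η c hη => ?_⟩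
  have h1 : fderiv ℂ (fun x => (fderiv ℂ ψ x).det ^ m • γ' (ψ x)) x η =
      (fderiv ℂ ψ x).det ^ m • fderiv ℂ γ' (ψ x) (fderiv ℂ ψ x η) +
        fderiv ℂ (fun x => (fderiv ℂ ψ x).det ^ m) x η • γ' (ψ x) := by
    have h2 := fderiv_fun_smul hj.differentiableAt hg.differentiableAt
    rw [h2]
    have h3 : fderiv ℂ (fun x => γ' (ψ x)) x = (fderiv ℂ γ' (ψ x)).comp (fderiv ℂ ψ x) :=
      fderiv_comp (𝕜 := ℂ) x (g := γ') (f := ψ) hγ.differentiableAt hψ.differentiableAt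
    rw [h3]
    rfl
  simp only at hη
  rw [h1] at hη
  have h4 : (fderiv ℂ ψ x).det ^ m ≠ 0 := pow_ne_zero m hd
  have h5 : fderiv ℂ γ' (ψ x) (fderiv ℂ ψ x η) =
      (c - ((fderiv ℂ ψ x).det ^ m)⁻¹ * fderiv ℂ (fun x => (fderiv ℂ ψ x).det ^ m) x η) •
        γ' (ψ x) := by
    have h6 : (fderiv ℂ ψ x).det ^ m • fderiv ℂ γ' (ψ x) (fderiv ℂ ψ x η) =
        (fderiv ℂ ψ x).det ^ m • ((c - ((fderiv ℂ ψ x).det ^ m)⁻¹ *
          fderiv ℂ (fun x => (fderiv ℂ ψ x).det ^ m) x η) • γ' (ψ x)) := by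
      rw [eq_sub_of_add_eq hη, smul_smul, smul_smul, ← sub_smul, mul_sub,
        mul_inv_cancel_left₀ h4, mul_comm c]
    exact smul_right_injective H' h4 h6
  exact (bij_of_det_ne hd).1 ((hi.2 _ _ h5).trans (map_zero _).symm)

/-- the normal form in another chart -/
theorem nf_chg' [IsManifold 𝓘(ℂ, Cm n) ω X] {v : E → Chart n X → (Fin R → Cm n) → H}
    (hv : ∀ y e e', At e (p y) → At e' (p y) → ∀ ξ, v y e ξ =
      v y e' (fun i => fderiv ℂ (fun z => e' (e.symm z)) (e (p y)) (ξ i)))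
    (hp : IsCoveringMap p)
    {y : E} {e e' : Chart n X} {b : Cm n → Cm R} {γ : Cm R → H} (h : IsNF m p v y e' b γ)
    (he : At e (p y)) : IsNF m p v y e (fun z => b (e' (e.symm z))) γ := by
  have h2 : AnalyticAt ℂ (fun z => e' (e.symm z)) (e (p y)) := (transition he h.mem).analyticAt
  have h3 : e' (e.symm (e (p y))) = e' (p y) := by rw [he.left_inv]
  have h4 : AnalyticAt ℂ b (e' (e.symm (e (p y)))) := by rw [h3]; exact h.ban
  have h5 : AnalyticAt ℂ (fun z => b (e' (e.symm z))) (e (p y)) :=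
    AnalyticAt.fun_comp (f := fun z => e' (e.symm z)) h4 h2
  have hfd : ∀ y', At e (p y') → At e' (p y') → AnalyticAt ℂ b (e' (p y')) →
      fderiv ℂ (fun z => b (e' (e.symm z))) (e (p y')) =
        (fderiv ℂ b (e' (p y'))).comp (fderiv ℂ (fun z => e' (e.symm z)) (e (p y'))) := by
    intro y' k1 k2 k3
    have h2 : AnalyticAt ℂ (fun z => e' (e.symm z)) (e (p y')) := (transition k1 k2).analyticAt
    have h3 : e' (e.symm (e (p y'))) = e' (p y') := by rw [k1.left_inv]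
    have h6 := fderiv_comp (𝕜 := ℂ) (e (p y')) (g := b) (f := fun z => e' (e.symm z))
      (by rw [h3]; exact k3.differentiableAt) h2.differentiableAt
    rw [h3] at h6
    exact h6
  refine ⟨he, h5, ?_, ?_, ?_, ?_⟩
  · rw [hfd y he h.mem h.ban]
    exact h.bsurj.comp (H221.transition_surjective he h.mem)
  · show AnalyticAt ℂ γ (b (e' (e.symm (e (p y)))))
    rw [h3]
    exact h.γan
  · show ImmAt γ (b (e' (e.symm (e (p y)))))
    rw [h3]
    exact h.imm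
  · have h8 : ∀ᶠ y' in 𝓝 y, AnalyticAt ℂ b (e' (p y')) :=
      (tendsto_ep hp h.mem).eventually h.ban.eventually_analyticAt
    filter_upwards [h.nf, at_ev hp he, at_ev hp h.mem, h8] with y' k1 k2 k3 k4 ξ
    rw [hv y' e e' k2 k3, k1, hfd y' k2 k3 k4]
    show _ = _ • γ (b (e' (e.symm (e (p y')))))
    rw [k2.left_inv]
    rfl

/-- **Transfer.** Two normal forms with the same leaves: the second form in the coordinates of the
first. -/
theorem NFL.transfer [CompleteSpace H'] [IsManifold 𝓘(ℂ, Cm n) ω X] (hp : IsCoveringMap p)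
    (hF : HolE n p F)
    (hch : ∀ y e e', Reg (n := n) p F y → At e (p y) → At e' (p y) → ∀ ξ ∈ VS p F y e,
      Θ y e ξ = Θ y e' (fderiv ℂ (fun z => e' (e.symm z)) (e (p y)) ξ))
    {v : E → Chart n X → (Fin R → Cm n) → H} {v' : E → Chart n X → (Fin R → Cm n) → H'}
    (hv' : ∀ y e e', At e (p y) → At e' (p y) → ∀ ξ, v' y e ξ =
      v' y e' (fun i => fderiv ℂ (fun z => e' (e.symm z)) (e (p y)) (ξ i)))
    {y : E} {e e' : Chart n X} {b b' : Cm n → Cm R} {γ : Cm R → H} {γ' : Cm R → H'}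
    (h : NFL m p F Θ v y e b γ) (h' : NFL m p F Θ v' y e' b' γ') :
    ∃ γ₁ : Cm R → H', AnalyticAt ℂ γ₁ (b (e (p y))) ∧ ImmAt γ₁ (b (e (p y))) ∧
      ∀ᶠ y' in 𝓝 y, ∀ ξ : Fin R → Cm n, v' y' e ξ =
        (Matrix.of fun i j => fderiv ℂ b (e (p y')) (ξ j) i).det ^ m • γ₁ (b (e (p y'))) := by
  have he : At e (p y) := h.nf.mem
  have he' : At e' (p y) := h'.nf.mem
  have hnf := nf_chg' hv' hp h'.nf he
  set b₂ : Cm n → Cm R := fun z => b' (e' (e.symm z)) with hb₂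
  have hb₂an : ∀ᶠ y' in 𝓝 y, AnalyticAt ℂ b₂ (e (p y')) :=
    (tendsto_ep hp he).eventually hnf.ban.eventually_analyticAt
  have hb'an : ∀ᶠ y' in 𝓝 y, AnalyticAt ℂ b' (e' (p y')) :=
    (tendsto_ep hp he').eventually h'.nf.ban.eventually_analyticAt
  -- the kernels agree
  have hker : ∀ᶠ z in 𝓝 (e (p y)), ∀ ξ, fderiv ℂ b z ξ = 0 → fderiv ℂ b₂ z ξ = 0 := by
    rw [← ev_iff hp he]
    filter_upwards [h.ker, h'.ker, at_ev hp he, at_ev hp he', hb'an, h.reg]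
      with y' h1 h2 h3 h4 h5 h6 ξ hξ
    obtain ⟨h7, h8⟩ := (h1 ξ).1 hξ
    have h9 : e' (e.symm (e (p y'))) = e' (p y') := by rw [h3.left_inv]
    have h10 := fderiv_comp (𝕜 := ℂ) (e (p y')) (g := b') (f := fun z => e' (e.symm z))
      (by rw [h9]; exact h5.differentiableAt) (transition h3 h4).analyticAt.differentiableAt
    rw [h9] at h10
    have h11 : fderiv ℂ b₂ (e (p y')) ξ =
        fderiv ℂ b' (e' (p y')) (fderiv ℂ (fun z => e' (e.symm z)) (e (p y')) ξ) :=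
      DFunLike.congr_fun h10 ξ
    rw [h11, h2]
    exact ⟨VS_change hp hF h4 h3 h7, by rw [← hch y' e e' h6 h3 h4 ξ h7]; exact h8⟩
  obtain ⟨ψ, hψan, hψ⟩ := H174.exists_factor h.nf.ban h.nf.bsurj hnf.ban hker
  have hψb : b₂ (e (p y)) = ψ (b (e (p y))) := hψ.self_of_nhds
  have hban : ∀ᶠ y' in 𝓝 y, AnalyticAt ℂ b (e (p y')) :=
    (tendsto_ep hp he).eventually h.nf.ban.eventually_analyticAt
  have hψan' : ∀ᶠ y' in 𝓝 y, AnalyticAt ℂ ψ (b (e (p y'))) := by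
    have h1 : Tendsto (fun y' => b (e (p y'))) (𝓝 y) (𝓝 (b (e (p y)))) :=
      h.nf.ban.continuousAt.tendsto.comp (tendsto_ep hp he)
    exact h1.eventually hψan.eventually_analyticAt
  have hψ' : ∀ᶠ y' in 𝓝 y, ∀ᶠ z in 𝓝 (e (p y')), b₂ z = ψ (b z) :=
    (tendsto_ep hp he).eventually hψ.eventually_nhds
  have hfd : ∀ z, AnalyticAt ℂ b z → AnalyticAt ℂ ψ (b z) → (∀ᶠ z' in 𝓝 z, b₂ z' = ψ (b z')) →
      fderiv ℂ b₂ z = (fderiv ℂ ψ (b z)).comp (fderiv ℂ b z) := by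
    intro z h1 h2 h3
    rw [Filter.EventuallyEq.fderiv_eq h3]
    exact fderiv_comp (𝕜 := ℂ) z (g := ψ) (f := b) h2.differentiableAt h1.differentiableAt
  have hsurj : Function.Surjective (fderiv ℂ ψ (b (e (p y)))) := by
    have h1 := hnf.bsurj
    rw [hfd _ h.nf.ban hψan hψ] at h1
    exact Function.Surjective.of_comp h1
  have hdet : (fderiv ℂ ψ (b (e (p y)))).det ≠ 0 :=
    det_ne ⟨(LinearMap.injective_iff_surjective_of_finrank_eq_finrank
      (f := (fderiv ℂ ψ (b (e (p y))) : Cm R →ₗ[ℂ] Cm R)) rfl).2 hsurj, hsurj⟩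
  have hγan : AnalyticAt ℂ γ' (ψ (b (e (p y)))) := by rw [← hψb]; exact hnf.γan
  have himm : ImmAt γ' (ψ (b (e (p y)))) := by rw [← hψb]; exact hnf.imm
  obtain ⟨h1, h2⟩ := imm_pull hγan hψan hdet himm m
  refine ⟨_, h1, h2, ?_⟩
  filter_upwards [hnf.nf, hban, hψan', hψ'] with y' k1 k2 k3 k4 ξ
  rw [k1, hfd _ k2 k3 k4, k4.self_of_nhds, smul_smul, ← mul_pow]
  congr 2
  have k5 : (Matrix.of fun i j => ((fderiv ℂ ψ (b (e (p y')))).comp
      (fderiv ℂ b (e (p y')))) (ξ j) i) =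
      (LinearMap.toMatrix' (fderiv ℂ ψ (b (e (p y'))) : Cm R →ₗ[ℂ] Cm R)) *
        (Matrix.of fun i j => fderiv ℂ b (e (p y')) (ξ j) i) := by
    ext i j
    rw [Matrix.mul_apply]
    have k6 := congrFun (LinearMap.toMatrix'_mulVec
      (fderiv ℂ ψ (b (e (p y'))) : Cm R →ₗ[ℂ] Cm R) (fderiv ℂ b (e (p y')) (ξ j))) i
    exact k6.symm
  rw [k5, Matrix.det_mul, LinearMap.det_toMatrix', mul_comm]

end

end Vale.Agent.P284.H494.N
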