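import Vale.Agent.P284.H494.N.Leaf2

/-!
# P284 (helper494), program N, module N7a: the sum of the translates of a leaf form of full rank
-/

open scoped Manifold ContDiff Topology InnerProductSpace
open Filter Set Metric

noncomputable section

namespace Vale.Agent.P284.H494.N

open Vale.Agent.P272.K Vale.Agent.P284.H894 Vale.Agent.P284.H894.G Vale.Agent.P284.H894.V
  Vale.Agent.P284.H894.W Vale.Agent.P284.H573 Vale.Agent.P284.H619 Vale.Agent.P284.H625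
  Vale.Agent.P284.H378 Vale.Agent.P284.H174.GD

section
variable {n q r m R : ℕ} {X E Γ W H : Type} [TopologicalSpace X] [ChartedSpace (Cm n) X]
  [TopologicalSpace E] [Group Γ] [MulAction Γ E]
  [NormedAddCommGroup W] [InnerProductSpace ℂ W] [NormedAddCommGroup H] [InnerProductSpace ℂ H]
  {p : E → X} {F : E → Cm q} {Θ : E → Chart n X → (Cm n →L[ℂ] W)} {ι : Type} [Fintype ι]

/-- the direct sum of isometries -/
def piU (U : ι → (H →ₗᵢ[ℂ] H)) : PiLp 2 (fun _ : ι => H) →ₗᵢ[ℂ] PiLp 2 (fun _ : ι => H) where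
  toFun w := WithLp.toLp 2 fun i => U i (w i)
  map_add' w w' := by
    ext i
    show U i ((w + w') i) = U i (w i) + U i (w' i)
    rw [PiLp.add_apply, map_add]
  map_smul' t w := by
    ext i
    show U i ((t • w) i) = t • U i (w i)
    rw [PiLp.smul_apply, map_smul]
  norm_map' w := by
    show ‖(WithLp.toLp 2 fun i => U i (w i) : PiLp 2 (fun _ : ι => H))‖ = ‖w‖
    rw [PiLp.norm_eq_of_L2, PiLp.norm_eq_of_L2]
    congr 1
    refine Finset.sum_congr rfl fun i _ => ?_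
    show ‖U i (w i)‖ ^ 2 = ‖w i‖ ^ 2
    rw [LinearIsometry.norm_map]

theorem piU_apply (U : ι → (H →ₗᵢ[ℂ] H)) (w : PiLp 2 (fun _ : ι => H)) (i : ι) :
    piU U w i = U i (w i) := rfl

/-- the translate of a form -/
theorem hform_comp {v : E → Chart n X → (Fin R → Cm n) → H} (h : HForm n R m p H v) {σ : E → E}
    (hσ : Continuous σ) (hσp : ∀ y, p (σ y) = p y) :
    HForm n R m p H (fun y e ξ => v (σ y) e ξ) := by
  constructor
  · intro y e he
    obtain ⟨f, hf, hv⟩ := h.hol (σ y) e (by rw [hσp]; exact he)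
    rw [hσp] at hf
    refine ⟨f, hf, ?_⟩
    filter_upwards [ev_map hσ hv] with y' h1
    rw [hσp] at h1
    exact h1
  · intro y e e' he he' ξ
    have h1 := h.change (σ y) e e' (by rw [hσp]; exact he) (by rw [hσp]; exact he') ξ
    rwa [hσp] at h1
  · intro y e he A ξ
    exact h.det (σ y) e (by rw [hσp]; exact he) A ξ
  · intro y y₁ e he hyy ξ
    exact h.inv (σ y) (σ y₁) e (by rw [hσp]; exact he) (by rw [hσp, hσp]; exact hyy) ξ

/-- finite intersections of translates of a thin set -/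
theorem thin_iInter {σ : ι → E → E} (hσ : ∀ i, Continuous (σ i))
    (hσp : ∀ i y, p (σ i y) = p y) {𝒢 : Set E} (h : Thin n p 𝒢) :
    Thin n p (⋂ i, σ i ⁻¹' 𝒢) := by
  classical
  refine ⟨isOpen_iInter_of_finite fun i => h.isOpen.preimage (hσ i), fun y e he => ?_⟩
  have h1 : ∀ s : Finset ι, ∃ j : Cm n → ℂ, AnalyticAt ℂ j (e (p y)) ∧
      (∃ᶠ z in 𝓝 (e (p y)), j z ≠ 0) ∧
      ∀ᶠ y' in 𝓝 y, j (e (p y')) ≠ 0 → ∀ i ∈ s, σ i y' ∈ 𝒢 := by
    intro s
    induction s using Finset.induction_on with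
    | empty =>
      refine ⟨fun _ => 1, analyticAt_const, Eventually.frequently
        (Eventually.of_forall fun _ => one_ne_zero), Eventually.of_forall fun _ _ i hi => ?_⟩
      exact absurd hi (Finset.notMem_empty i)
    | insert i s _ ih =>
      obtain ⟨j, h1, h2, h3⟩ := ih
      obtain ⟨j', h1', h2', h3'⟩ := h.thin (σ i y) e (by rw [hσp]; exact he)
      rw [hσp] at h1' h2'
      refine ⟨fun z => j z * j' z, h1.mul h1', H812.NSF.freq_mul h1 h1' h2 h2', ?_⟩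
      filter_upwards [h3, ev_map (hσ i) h3'] with y' k k' hk i' hi'
      rcases Finset.mem_insert.1 hi' with h4 | h4
      · rw [h4]
        rw [hσp] at k'
        exact k' (right_ne_zero_of_mul hk)
      · exact k (left_ne_zero_of_mul hk) i' h4
  obtain ⟨j, h2, h3, h4⟩ := h1 Finset.univ
  refine ⟨j, h2, h3, ?_⟩
  filter_upwards [h4] with y' h5 h6
  exact mem_iInter.2 fun i => h5 h6 i (Finset.mem_univ i)

/-- the values of the normal form are values of the form -/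
theorem range_near [IsManifold 𝓘(ℂ, Cm n) ω X] (hp : IsCoveringMap p)
    {v : E → Chart n X → (Fin R → Cm n) → H} {y : E} {e : Chart n X} {b : Cm n → Cm R}
    {γ : Cm R → H} (h : IsNF m p v y e b γ) :
    ∀ᶠ x in 𝓝 (b (e (p y))), ∃ y' ξ, At e (p y') ∧ (Matrix.of fun i j =>
      fderiv ℂ b (e (p y')) (ξ j) i).det ≠ 0 ∧ v y' e ξ =
      (Matrix.of fun i j => fderiv ℂ b (e (p y')) (ξ j) i).det ^ m • γ x := by
  have he := h.mem
  have hbs : ∀ᶠ y' in 𝓝 y, Function.Surjective (fderiv ℂ b (e (p y'))) :=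
    (tendsto_ep hp he).eventually
      (h.ban.fderiv.continuousAt.eventually (surj_isOpen.mem_nhds h.bsurj))
  have h1 : ∀ᶠ y' in 𝓝 y, At e (p y') ∧ Function.Surjective (fderiv ℂ b (e (p y'))) ∧
      ∀ ξ : Fin R → Cm n, v y' e ξ =
        (Matrix.of fun i j => fderiv ℂ b (e (p y')) (ξ j) i).det ^ m • γ (b (e (p y'))) :=
    (at_ev hp he).and (hbs.and h.nf)
  have hopen : Filter.map (fun y' => b (e (p y'))) (𝓝 y) = 𝓝 (b (e (p y))) := by
    have h2 : Filter.map (fun y' => e (p y')) (𝓝 y) = 𝓝 (e (p y)) := map_ep hp he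
    have h3 : Filter.map b (𝓝 (e (p y))) = 𝓝 (b (e (p y))) :=
      (h.ban.hasStrictFDerivAt).map_nhds_eq_of_surj (LinearMap.range_eq_top.2 h.bsurj)
    have h4 : Filter.map (fun y' => b (e (p y'))) (𝓝 y) =
        Filter.map b (Filter.map (fun y' => e (p y')) (𝓝 y)) := Filter.map_map.symm
    rw [h4, h2, h3]
  rw [← hopen, Filter.eventually_map]
  filter_upwards [h1] with y' h2
  obtain ⟨S, hS⟩ := (fderiv ℂ b (e (p y')) : Cm n →ₗ[ℂ] Cm R).exists_rightInverse_of_surjective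
    (LinearMap.range_eq_top.2 h2.2.1)
  refine ⟨y', fun j => S (Pi.single j 1), h2.1, ?_, h2.2.2 _⟩
  have h3 : (Matrix.of fun i j => fderiv ℂ b (e (p y')) (S (Pi.single j 1)) i) =
      (1 : Matrix (Fin R) (Fin R) ℂ) := by
    ext i j
    have h4 : fderiv ℂ b (e (p y')) (S (Pi.single j 1)) = Pi.single j 1 :=
      LinearMap.congr_fun hS (Pi.single j 1)
    rw [Matrix.of_apply, h4, Matrix.one_apply, Pi.single_apply]
  rw [h3, Matrix.det_one]
  exact one_ne_zero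

/-- **The leaf chart of the sum of the translates** of a form of full rank. -/
theorem lc_sum [CompleteSpace W] [CompleteSpace H] [IsManifold 𝓘(ℂ, Cm n) ω X]
    (hp : IsCoveringMap p) (hpg : ∀ (g : Γ) y, p (g • y) = p y) (hF : HolE n p F)
    (hch : ∀ y e e', Reg (n := n) p F y → At e (p y) → At e' (p y) → ∀ ξ ∈ VS p F y e,
      Θ y e ξ = Θ y e' (fderiv ℂ (fun z => e' (e.symm z)) (e (p y)) ξ))
    {v : E → Chart n X → (Fin (q + r) → Cm n) → H} {U : Γ → (H →ₗᵢ[ℂ] H)}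
    {π : Γ →* (W ≃ₗᵢ[ℂ] W)} {N : Cm 0 →L[ℂ] Cm q} {𝒢 : Set E}
    (hvc : ∀ y e e', At e (p y) → At e' (p y) → ∀ ξ, v y e ξ =
      v y e' (fun i => fderiv ℂ (fun z => e' (e.symm z)) (e (p y)) (ξ i)))
    (hequi : ∀ (g : Γ) y e, At e (p y) → ∀ ξ, v (g • y) e ξ = U g (v y e ξ))
    (hchart : ∀ y ∈ 𝒢, ∃ (e : Chart n X) (b : Cm n → Cm (q + r)) (F0 : Cm (q + r) → W)
      (β : Cm (q + r) → Cm (q + r)) (γ : Cm (q + r) → H) (τ : Cm (q + r) → Cm q),
      LC p F m v U π Θ N y e b F0 β γ τ)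
    {σ : ι → E → E} (hσ : ∀ i, Continuous (σ i)) (hσp : ∀ i y, p (σ i y) = p y)
    {A : ι → (Cm q ≃L[ℂ] Cm q)} {a : ι → Cm q} (hσF : ∀ i y, F (σ i y) = A i (F y) + a i)
    {V : ι → (W →ₗᵢ[ℂ] W)} (hV : ∀ i y e, Reg (n := n) p F y → At e (p y) → ∀ ξ ∈ VS p F y e,
      Θ (σ i y) e ξ = V i (Θ y e ξ))
    {φ : ι → Γ → Γ} (hφ : ∀ i (g : Γ) y, σ i (g • y) = φ i g • σ i y)
    (i₀ : ι) (g₀ : Γ) (hi₀ : ∀ y, σ i₀ y = g₀ • y) {y : E} (hyG : y ∈ 𝒢)
    (hy : ∀ i, σ i y ∈ 𝒢) :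
    ∃ (e : Chart n X) (b : Cm n → Cm (q + r)) (F0 : Cm (q + r) → W)
      (β : Cm (q + r) → Cm (q + r)) (γ : Cm (q + r) → PiLp 2 fun _ : ι => H)
      (τ : Cm (q + r) → Cm q), LC p F m (fun y e ξ => (WithLp.toLp 2 fun i => v (σ i y) e ξ :
        PiLp 2 fun _ : ι => H)) (fun g => piU fun i => U (φ i g)) π Θ N y e b F0 β γ τ := by
  classical
  obtain ⟨e, b, F0, β, γ, τ, hC⟩ := hchart y hyG
  have he : At e (p y) := hC.mem
  have hN := NFL.of_LC hp hC
  have hg₀ : ∀ y' ξ, At e (p y') → v (σ i₀ y') e ξ = U g₀ (v y' e ξ) := by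
    intro y' ξ h1
    rw [hi₀, hequi _ _ e h1]
  -- the components
  have hγ : ∀ i, ∃ γ₁ : Cm (q + r) → H, AnalyticAt ℂ γ₁ (b (e (p y))) ∧
      ImmAt γ₁ (b (e (p y))) ∧ (∀ᶠ y' in 𝓝 y, ∀ ξ : Fin (q + r) → Cm n, v (σ i y') e ξ =
        (Matrix.of fun i j => fderiv ℂ b (e (p y')) (ξ j) i).det ^ m • γ₁ (b (e (p y')))) ∧
      (i = i₀ → γ₁ = fun x => U g₀ (γ (β x))) := by
    intro i
    by_cases h0 : i = i₀
    · subst h0
      refine ⟨fun x => U g₀ (γ (β x)), ?_, ⟨?_, fun η c hη => ?_⟩, ?_, fun _ => rfl⟩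
      · exact ((U g₀).toContinuousLinearMap.analyticAt _).comp hN.nf.γan
      · exact (map_ne_zero_iff _ (U g₀).injective).2 hN.nf.imm.1
      · have h1 : fderiv ℂ (fun x => U g₀ (γ (β x))) (b (e (p y))) =
            (U g₀).toContinuousLinearMap.comp (fderiv ℂ (fun x => γ (β x)) (b (e (p y)))) :=
          ((U g₀).toContinuousLinearMap.hasFDerivAt.comp _
            hN.nf.γan.differentiableAt.hasFDerivAt).fderiv
        rw [h1] at hη
        refine hN.nf.imm.2 η c ((U g₀).injective ?_)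
        rw [map_smul]
        exact hη
      · filter_upwards [hN.nf.nf, at_ev hp he] with y' h1 h2 ξ
        rw [hg₀ y' ξ h2, h1, map_smul]
    · obtain ⟨e', b', F0', β', γ', τ', hC'⟩ := hchart (σ i y) (hy i)
      have hN' := NFL.comp hp hF (hσ i) (hσp i) (hσF i) (hV i) (NFL.of_LC hp hC')
      obtain ⟨γ₁, h1, h2, h3⟩ := NFL.transfer hp hF hch
        (v' := fun y e ξ => v (σ i y) e ξ) (fun y e e' he he' ξ => by
          have h1 := hvc (σ i y) e e' (by rw [hσp]; exact he) (by rw [hσp]; exact he') ξ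
          rwa [hσp] at h1) hN hN'
      exact ⟨γ₁, h1, h2, h3, fun h => absurd h h0⟩
  choose γ₁ h1 h2 h3 h4 using hγ
  have h40 : γ₁ i₀ = fun x => U g₀ (γ (β x)) := h4 i₀ rfl
  set γt : Cm (q + r) → PiLp 2 (fun _ : ι => H) := fun x => WithLp.toLp 2 fun i => γ₁ i x
    with hγt
  have hγtan : AnalyticAt ℂ γt (b (e (p y))) :=
    ((PiLp.continuousLinearEquiv 2 ℂ fun _ : ι => H).symm.toContinuousLinearMap.analyticAt
      _).comp (AnalyticAt.pi fun i => h1 i)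
  refine ⟨e, b, F0, fun x => x, γt, tq, ⟨hC.mem, hC.ban, hC.bsurj, hC.t_eq, hC.F0an, hC.pot,
    hC.F0imm, analyticAt_id, ?_, ?_, hγtan, ⟨?_, fun η c hη => ?_⟩, ?_,
    (tqL' q r).analyticAt _, ?_, ?_⟩⟩
  · rw [fderiv_fun_id]
    exact fun u => ⟨u, rfl⟩
  · intro ζ _ hζ
    rw [fderiv_fun_id] at hζ
    exact hζ
  · intro h0
    refine (h2 i₀).1 ?_
    have h5 := congrArg (fun w : PiLp 2 (fun _ : ι => H) => w i₀) h0
    exact h5
  · refine (h2 i₀).2 η c ?_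
    have h5 : fderiv ℂ (γ₁ i₀) (b (e (p y))) =
        (PiLp.proj 2 (𝕜 := ℂ) (fun _ : ι => H) i₀).comp (fderiv ℂ γt (b (e (p y)))) :=
      ((PiLp.proj 2 (𝕜 := ℂ) (fun _ : ι => H) i₀).hasFDerivAt.comp _
        hγtan.differentiableAt.hasFDerivAt).fderiv
    rw [h5]
    show (fderiv ℂ γt (b (e (p y))) η) i₀ = _
    rw [hη]
    rfl
  · filter_upwards [eventually_all.2 h3] with y' h5 ξ
    ext i
    exact h5 i ξ
  · refine Eventually.of_forall fun x => ?_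
    rw [sub_self]
    exact Submodule.zero_mem _
  · obtain ⟨ρ, hρ, hsh⟩ := hC.sheet
    obtain ⟨ρ', hρ', hr⟩ := Metric.eventually_nhds_iff_ball.1 (range_near hp hN.nf)
    refine ⟨min ρ ρ', lt_min hρ hρ', fun g x₁ hx₁ ψ hψ hψ₁ hc hs => ?_⟩
    have hb1 : ball (b (e (p y))) (min ρ ρ') ⊆ ball (b (e (p y))) ρ :=
      ball_subset_ball (min_le_left _ _)
    have hb2 : ball (b (e (p y))) (min ρ ρ') ⊆ ball (b (e (p y))) ρ' :=
      ball_subset_ball (min_le_right _ _)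
    refine hsh g x₁ (hb1 hx₁) ψ hψ (hb1 hψ₁) hc ?_
    filter_upwards [hs, isOpen_ball.mem_nhds hx₁] with x h5 h6
    obtain ⟨c, h7⟩ := h5
    obtain ⟨y', ξ, h8, h9, h10⟩ := hr x (hb2 h6)
    have h11 : U (φ i₀ g) (γ₁ i₀ x) = c • γ₁ i₀ (ψ x) :=
      congrArg (fun w : PiLp 2 (fun _ : ι => H) => w i₀) h7
    rw [h40] at h11
    simp only at h11
    refine ⟨c, (U g₀).injective ?_⟩
    rw [map_smul, ← h11]
    -- `U (g₀ g g₀⁻¹) U g₀ = U g₀ U g` on the values of `v`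
    have h12 : v (σ i₀ (g • y')) e ξ = U (φ i₀ g) (v (σ i₀ y') e ξ) := by
      rw [hφ, hequi _ _ e (by rw [hσp]; exact h8)]
    have h13 : At e (p (g • y')) := by rw [hpg]; exact h8
    rw [hg₀ _ ξ h13, hg₀ _ ξ h8, hequi _ _ e h8, h10, map_smul, map_smul, map_smul,
      map_smul] at h12
    exact smul_right_injective H (pow_ne_zero m h9) h12

/-- **N7a.** The sum of the translates of a leaf form of full rank is a leaf form. -/
theorem leafE_sum [CompleteSpace W] [CompleteSpace H] [IsManifold 𝓘(ℂ, Cm n) ω X]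
    (hp : IsCoveringMap p) (hpg : ∀ (g : Γ) y, p (g • y) = p y) (hF : HolE n p F)
    (hch : ∀ y e e', Reg (n := n) p F y → At e (p y) → At e' (p y) → ∀ ξ ∈ VS p F y e,
      Θ y e ξ = Θ y e' (fderiv ℂ (fun z => e' (e.symm z)) (e (p y)) ξ))
    {v : E → Chart n X → (Fin (q + r) → Cm n) → H} {U : Γ → (H →ₗᵢ[ℂ] H)}
    {π : Γ →* (W ≃ₗᵢ[ℂ] W)} {N : Cm 0 →L[ℂ] Cm q} {𝒢 : Set E}
    (hL : LeafE (q + r) p F m v U π Θ N 𝒢)
    {σ : ι → E → E} (hσ : ∀ i, Continuous (σ i)) (hσp : ∀ i y, p (σ i y) = p y)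
    {A : ι → (Cm q ≃L[ℂ] Cm q)} {a : ι → Cm q} (hσF : ∀ i y, F (σ i y) = A i (F y) + a i)
    {V : ι → (W →ₗᵢ[ℂ] W)} (hV : ∀ i y e, Reg (n := n) p F y → At e (p y) → ∀ ξ ∈ VS p F y e,
      Θ (σ i y) e ξ = V i (Θ y e ξ))
    {φ : ι → Γ → Γ} (hφ : ∀ i (g : Γ) y, σ i (g • y) = φ i g • σ i y)
    (hπ : ∀ i g, π g = 1 → π (φ i g) = 1)
    (i₀ : ι) (g₀ : Γ) (hi₀ : ∀ y, σ i₀ y = g₀ • y) :
    LeafE (q + r) p F m (fun y e ξ => (WithLp.toLp 2 fun i => v (σ i y) e ξ :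
      PiLp 2 fun _ : ι => H)) (fun g => piU fun i => U (φ i g)) π Θ N (⋂ i, σ i ⁻¹' 𝒢) := by
  classical
  refine ⟨H494.hform_pi fun i => hform_comp hL.form (hσ i) (hσp i), hL.dim, hL.m_pos, hL.Ninj,
    ?_, ?_, thin_iInter hσ hσp hL.good, ?_, ?_⟩
  · intro g y e he ξ
    ext i
    show v (σ i (g • y)) e ξ = U (φ i g) (v (σ i y) e ξ)
    rw [hφ, hL.equi _ _ e (by rw [hσp]; exact he)]
  · intro g hg y e he ξ
    congr 1
    funext i
    rw [hφ, hL.triv _ (hπ i g hg) _ e (by rw [hσp]; exact he)]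
  · intro g y hy
    rw [mem_iInter] at hy ⊢
    intro i
    show σ i (g • y) ∈ 𝒢
    rw [hφ]
    exact hL.inv _ _ (hy i)
  · intro y hy
    rw [mem_iInter] at hy
    have hyG : y ∈ 𝒢 := by
      have h1 : g₀ • y ∈ 𝒢 := by rw [← hi₀]; exact hy i₀
      have h2 := hL.inv g₀⁻¹ _ h1
      rwa [inv_smul_smul] at h2
    exact lc_sum hp hpg hF hch hL.form.change hL.equi hL.chart hσ hσp hσF hV hφ i₀ g₀ hi₀
      hyG hy

end

end Vale.Agent.P284.H494.N
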