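import Vale.Agent.P284.H494.N.NormS
import Mathlib.LinearAlgebra.GeneralLinearGroup.Basic

/-!
# P284 (helper494), program N, module N3: basic lemmas, the quotient data, the quotient torus
-/

open Function

noncomputable section

namespace Vale.Agent.P284.H494.N

open Vale.Agent.P272.K Vale.Agent.P284.H894.V Vale.Agent.P284.H213.Grp

section
variable {Γ : Type} [Group Γ] {G : Subgroup Γ} {N : ℕ} {A : Γ →* (Cm N ≃ₗ[ℂ] Cm N)} {c : Γ → Cm N}

namespace ADat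

theorem map_one (h : ADat Γ G N A c) : c 1 = 0 := by
  have h1 := h.coc 1 1
  rw [one_mul, _root_.map_one] at h1
  have h2 : (1 : Cm N ≃ₗ[ℂ] Cm N) (c 1) = c 1 := rfl
  rw [h2] at h1
  exact (left_eq_add.1 h1)

theorem add_of_mem (h : ADat Γ G N A c) {g : Γ} (hg : g ∈ G) (x : Γ) : c (g * x) = c x + c g := by
  rw [h.coc, h.one g hg]
  rfl

theorem map_inv (h : ADat Γ G N A c) (g : Γ) : A g (c g⁻¹) + c g = 0 := by
  rw [← h.coc, mul_inv_cancel, h.map_one]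

theorem conj (h : ADat Γ G N A c) (g : Γ) {x : Γ} (hx : x ∈ G) : c (g * x * g⁻¹) = A g (c x) := by
  rw [mul_assoc, h.coc, h.add_of_mem hx, map_add, add_right_comm, h.map_inv, zero_add]

theorem ker_normal (h : ADat Γ G N A c) {K : Subgroup Γ} (hK : ∀ g, g ∈ K ↔ g ∈ G ∧ c g = 0) :
    K.Normal := by
  have := h.normal
  refine ⟨fun x hx g => ?_⟩
  rw [hK] at hx ⊢
  refine ⟨this.conj_mem x hx.1 g, ?_⟩
  rw [h.conj g hx.1, hx.2, _root_.map_zero]

end ADat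

/-- the induced representation on the quotient of `ℂᴺ` by a stable subspace -/
theorem exists_ind (A : Γ →* (Cm N ≃ₗ[ℂ] Cm N)) {q : ℕ} (L : Cm N →ₗ[ℂ] Cm q)
    (hL : Surjective L) (hst : ∀ g v, L v = 0 → L (A g v) = 0) :
    ∃ A₂ : Γ →* (Cm q ≃ₗ[ℂ] Cm q), ∀ g v, L (A g v) = A₂ g (L v) := by
  obtain ⟨s, hs⟩ := LinearMap.exists_rightInverse_of_surjective L (LinearMap.range_eq_top.2 hL)
  have hs' : ∀ v, L (s v) = v := fun v => LinearMap.congr_fun hs v
  have key : ∀ (g : Γ) (v : Cm N), L (A g (s (L v))) = L (A g v) := by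
    intro g v
    have h1 : L (s (L v) - v) = 0 := by rw [_root_.map_sub, hs', sub_self]
    have h2 := hst g _ h1
    rw [_root_.map_sub, _root_.map_sub, sub_eq_zero] at h2
    exact h2
  let E : Γ →* Module.End ℂ (Cm q) :=
    { toFun := fun g => L ∘ₗ (A g).toLinearMap ∘ₗ s
      map_one' := by
        refine LinearMap.ext fun v => ?_
        show L (A 1 (s v)) = v
        rw [_root_.map_one]
        exact hs' v
      map_mul' := fun g h => by
        refine LinearMap.ext fun v => ?_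
        show L (A (g * h) (s v)) = L (A g (s (L (A h (s v)))))
        rw [key, _root_.map_mul]
        rfl }
  let A₂ : Γ →* (Cm q ≃ₗ[ℂ] Cm q) :=
    (LinearMap.GeneralLinearGroup.generalLinearEquiv ℂ (Cm q)).toMonoidHom.comp E.toHomUnits
  refine ⟨A₂, fun g v => ?_⟩
  show L (A g v) = L (A g (s (L v)))
  rw [key]

/-- **The quotient data.** -/
theorem ADat.quot (h : ADat Γ G N A c) (M : Subgroup Γ) [hM : M.Normal] (hMG : M ≤ G) {q : ℕ}
    (L : Cm N →ₗ[ℂ] Cm q) (hL : Surjective L) (hst : ∀ g v, L v = 0 → L (A g v) = 0)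
    (hlat : LatChar G q (fun g : G => L (c g))) (hM0 : ∀ m ∈ M, L (c m) = 0) :
    ∃ (A₁ : Γ ⧸ M →* (Cm q ≃ₗ[ℂ] Cm q)) (c₁ : Γ ⧸ M → Cm q), (∀ g : Γ, c₁ (g : Γ ⧸ M) = L (c g)) ∧
      (∀ (g : Γ) v, L (A g v) = A₁ (g : Γ ⧸ M) (L v)) ∧
      ADat (Γ ⧸ M) (G.map (QuotientGroup.mk' M)) q A₁ c₁ := by
  obtain ⟨A₂, hA₂⟩ := exists_ind A L hL hst
  have hker : ∀ g ∈ G, A₂ g = 1 := by
    intro g hg
    refine LinearEquiv.ext fun v => ?_
    obtain ⟨v, rfl⟩ := hL v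
    rw [← hA₂, h.one g hg]
    rfl
  have hMk : M ≤ A₂.ker := fun m hm => hker m (hMG hm)
  let A₁ : Γ ⧸ M →* (Cm q ≃ₗ[ℂ] Cm q) := QuotientGroup.lift M A₂ hMk
  have hA₁ : ∀ g : Γ, A₁ (g : Γ ⧸ M) = A₂ g := fun g => rfl
  let c₁ : Γ ⧸ M → Cm q := fun x => Quotient.liftOn' x (fun g => L (c g)) (by
    intro a b hab
    rw [QuotientGroup.leftRel_apply] at hab
    have h1 := hM0 _ hab
    have h2 : b = a * (a⁻¹ * b) := by group
    show L (c a) = L (c b)
    rw [h2, h.coc, map_add, hA₂, h1, _root_.map_zero, zero_add])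
  have hc₁ : ∀ g : Γ, c₁ (g : Γ ⧸ M) = L (c g) := fun g => rfl
  refine ⟨A₁, c₁, hc₁, fun g v => by rw [hA₁, hA₂], ?_, ?_, ?_, ?_, ?_, ?_, ?_⟩
  · exact h.normal.map _ (QuotientGroup.mk'_surjective M)
  · have h1 := h.fi
    refine ⟨fun h0 => ?_⟩
    have h2 := Subgroup.index_map_dvd G (QuotientGroup.mk'_surjective M)
    rw [h0] at h2
    exact h1.index_ne_zero (zero_dvd_iff.1 h2)
  · intro x y
    obtain ⟨a, rfl⟩ := QuotientGroup.mk_surjective x
    obtain ⟨b, rfl⟩ := QuotientGroup.mk_surjective y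
    rw [← QuotientGroup.mk_mul, hc₁, hc₁, hc₁, h.coc, map_add, hA₂, hA₁]
  · rintro _ ⟨g, hg, rfl⟩
    exact hker g hg
  · rintro ⟨_, a, ha, rfl⟩ ⟨_, b, hb, rfl⟩
    exact hlat.add ⟨a, ha⟩ ⟨b, hb⟩
  · intro R
    refine (hlat.disc R).subset ?_
    rintro v ⟨⟨⟨_, a, ha, rfl⟩, rfl⟩, hv⟩
    exact ⟨⟨⟨a, ha⟩, rfl⟩, hv⟩
  · have : Set.range (fun g : G.map (QuotientGroup.mk' M) => c₁ g) =
        Set.range (fun g : G => L (c g)) := by
      ext v
      constructor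
      · rintro ⟨⟨_, a, ha, rfl⟩, rfl⟩
        exact ⟨⟨a, ha⟩, rfl⟩
      · rintro ⟨⟨a, ha⟩, rfl⟩
        exact ⟨⟨_, a, ha, rfl⟩, rfl⟩
    rw [this]; exact hlat.span

/-- **Step B**: the minimal stable quotient torus. -/
theorem exists_torusN (h : ADat Γ G N A c) (K : Subgroup Γ)
    (hK : ∀ g, g ∈ K ↔ g ∈ G ∧ c g = 0) :
    ∃ (q : ℕ) (L : Cm N →ₗ[ℂ] Cm q), Surjective L ∧ (∀ g v, L v = 0 → L (A g v) = 0) ∧
      LatChar G q (fun g : G => L (c g)) ∧ Good (K.subgroupOf G) (fun g : G => L (c g)) ∧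
      ∀ W : Submodule ℂ (Cm q),
        (∀ v ∈ W, v ∈ Submodule.span ℝ ({v | ∃ g : G, (∀ k ∈ K.subgroupOf G, g * k = k * g) ∧
          L (c g) = v} ∩ (W : Set (Cm q)))) → W = ⊥ := by
  classical
  have hGn := h.normal
  have hKn := h.ker_normal hK
  let P : ℕ → Prop := fun q => ∃ L : Cm N →ₗ[ℂ] Cm q, Surjective L ∧
    (∀ g v, L v = 0 → L (A g v) = 0) ∧
    LatChar G q (fun g : G => L (c g)) ∧ Good (K.subgroupOf G) (fun g : G => L (c g))
  have hP : P N := by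
    refine ⟨LinearMap.id, surjective_id, fun g v hv => ?_, h.lat, {1}, Set.finite_singleton _,
      fun g hg => ⟨1, rfl, g, ?_, 1, fun k _ => by simp, ?_, by simp⟩⟩
    · have hv' : v = 0 := hv
      rw [hv', _root_.map_zero, _root_.map_zero]
    · rw [Subgroup.mem_subgroupOf]
      exact (hK g).2 ⟨g.2, hg⟩
    · exact h.lat.map_one
  have hex : ∃ q, P q := ⟨N, hP⟩
  obtain ⟨q, ⟨L, hL, hst, hlat, hgood⟩, hmin⟩ : ∃ q, P q ∧ ∀ q', P q' → q ≤ q' :=
    ⟨Nat.find hex, Nat.find_spec hex, fun q hq => Nat.find_min' hex hq⟩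
  refine ⟨q, L, hL, hst, hlat, hgood, fun W₀ hW₀ => ?_⟩
  by_contra hW00
  obtain ⟨A₂, hA₂⟩ := exists_ind A L hL hst
  -- the quotient by the sum of the translates of `W₀`
  let D : Subgroup G := Subgroup.centralizer (K.subgroupOf G : Set G)
  have hD : ∀ g, g ∈ D ↔ ∀ k ∈ K.subgroupOf G, g * k = k * g := fun g => by
    rw [Subgroup.mem_centralizer_iff]
    exact ⟨fun h k hk => (h k hk).symm, fun h k hk => (h k hk).symm⟩
  have hset : {v | ∃ g : G, (∀ k ∈ K.subgroupOf G, g * k = k * g) ∧ L (c g) = v} =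
      {v | ∃ g ∈ D, L (c g) = v} := by
    ext v; simp only [Set.mem_ofPred_eq, hD]
  rw [hset] at hW₀
  set W : Submodule ℂ (Cm q) := ⨆ g : Γ, W₀.map (A₂ g).toLinearMap with hWdef
  have hWle : W₀ ≤ W := by
    refine le_trans (fun v hv => ?_) (le_iSup (fun g : Γ => W₀.map (A₂ g).toLinearMap) 1)
    refine ⟨v, hv, ?_⟩
    rw [_root_.map_one]
    rfl
  have hW0 : W ≠ ⊥ := fun h0 => hW00 (le_bot_iff.1 (h0 ▸ hWle))
  have hWst : ∀ (g : Γ) v, v ∈ W → A₂ g v ∈ W := by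
    intro g v hv
    have h1 : W ≤ W.comap (A₂ g).toLinearMap := by
      conv_lhs => rw [hWdef]
      refine iSup_le fun x => ?_
      rintro _ ⟨u, hu, rfl⟩
      show A₂ g (A₂ x u) ∈ W
      refine (le_iSup (fun g : Γ => W₀.map (A₂ g).toLinearMap) (g * x)) ⟨u, hu, ?_⟩
      rw [_root_.map_mul]
      rfl
    exact h1 hv
  -- conjugation
  let σ : Γ → G → G := fun x g => ⟨x * g * x⁻¹, hGn.conj_mem g g.2 x⟩
  have hσD : ∀ (x : Γ) (g : G), g ∈ D → σ x g ∈ D := by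
    intro x g hg
    rw [hD] at hg ⊢
    intro k hk
    have hk1 : x⁻¹ * (k : Γ) * x ∈ K := by
      have := hKn.conj_mem (k : Γ) hk x⁻¹
      rwa [inv_inv] at this
    have hk2 : x⁻¹ * (k : Γ) * x ∈ G := ((hK _).1 hk1).1
    have h2 := congrArg Subtype.val (hg ⟨_, hk2⟩ hk1)
    have h3 : (g : Γ) * (x⁻¹ * (k : Γ) * x) = (x⁻¹ * (k : Γ) * x) * g := h2
    refine Subtype.ext ?_
    show x * (g : Γ) * x⁻¹ * k = k * (x * g * x⁻¹)
    calc x * (g : Γ) * x⁻¹ * k = x * ((g : Γ) * (x⁻¹ * (k : Γ) * x)) * x⁻¹ := by group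
      _ = x * ((x⁻¹ * (k : Γ) * x) * g) * x⁻¹ := by rw [h3]
      _ = _ := by group
  have hσc : ∀ (x : Γ) (g : G), L (c (σ x g)) = A₂ x (L (c g)) := by
    intro x g
    rw [← hA₂]
    exact congrArg L (h.conj x g.2)
  have hW : ∀ v ∈ W, v ∈ Submodule.span ℝ ({v | ∃ g ∈ D, L (c g) = v} ∩ (W : Set (Cm q))) := by
    intro v hv
    have h1 : ∀ v ∈ W, v ∈ Submodule.span ℝ ({v | ∃ g ∈ D, L (c g) = v} ∩ (W : Set (Cm q))) := by
      intro v hv
      rw [hWdef] at hv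
      refine Submodule.iSup_induction (fun g : Γ => W₀.map (A₂ g).toLinearMap)
        (motive := fun v => v ∈ Submodule.span ℝ ({v | ∃ g ∈ D, L (c g) = v} ∩ (W : Set (Cm q))))
        hv ?_ (Submodule.zero_mem _) fun _ _ => Submodule.add_mem _
      rintro x _ ⟨u, hu, rfl⟩
      have h2 := hW₀ u hu
      have h3 : (A₂ x).toLinearMap.restrictScalars ℝ u ∈ Submodule.map
          ((A₂ x).toLinearMap.restrictScalars ℝ)
          (Submodule.span ℝ ({v | ∃ g ∈ D, L (c g) = v} ∩ (W₀ : Set (Cm q)))) := ⟨u, h2, rfl⟩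
      rw [Submodule.map_span] at h3
      refine Submodule.span_mono ?_ h3
      rintro _ ⟨w, ⟨⟨g, hg, hgw⟩, hw⟩, rfl⟩
      refine ⟨⟨σ x g, hσD x g hg, ?_⟩, ?_⟩
      · rw [hσc, hgw]
        rfl
      · exact hWst x w (hWle hw)
    exact h1 v hv
  set q₂ := Module.finrank ℂ (Cm q ⧸ W) with hq₂
  let b := Module.finBasis ℂ (Cm q ⧸ W)
  let L₂ : Cm q →ₗ[ℂ] Cm q₂ := b.equivFun.toLinearMap.comp W.mkQ
  have hL₂ : Surjective L₂ := b.equivFun.surjective.comp W.mkQ_surjective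
  have hker : LinearMap.ker L₂ = W := by
    rw [LinearMap.ker_comp_of_ker_eq_bot _ (LinearEquiv.ker _), Submodule.ker_mkQ]
  have hlat₂ := hlat.quot D W hW L₂ hL₂ hker
  have hlt : q₂ < q := by
    have h1 := Submodule.finrank_quotient_add_finrank W
    have h2 : 0 < Module.finrank ℂ W := by
      rw [Module.finrank_pos_iff]
      exact (Submodule.nontrivial_iff_ne_bot).2 hW0
    have h3 : Module.finrank ℂ (Cm q) = q := by simp
    omega
  have hgood₂ : Good (K.subgroupOf G) (fun g : G => (L₂.comp L) (c g)) := by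
    obtain ⟨F, hF, hFc⟩ := hgood
    obtain ⟨F', hF', hFc'⟩ := hlat.near_fin D (W.restrictScalars ℝ) hW
    -- representatives of the elements of `F'`
    let r : Cm q → G := fun v => if hv : ∃ g : G, L (c g) = v then hv.choose else 1
    have hr : ∀ g : G, L (c (r (L (c g)))) = L (c g) := by
      intro g
      have hv : ∃ g' : G, L (c g') = L (c g) := ⟨g, rfl⟩
      have : r (L (c g)) = hv.choose := dif_pos hv
      rw [this]; exact hv.choose_spec
    refine ⟨(fun p : G × Cm q => r p.2 * p.1) '' (F ×ˢ F'), (hF.prod hF').image _,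
      fun g hg => ?_⟩
    have hgW : L (c g) ∈ W := by
      rw [← hker]; exact hg
    obtain ⟨d, hdD, hdW, hdF⟩ := hFc' g hgW
    -- `g d⁻¹ = r v * x`, `x ∈ ker`
    set v := L (c ((g * d⁻¹ : G) : Γ)) with hv
    have hx : L (c (((r v)⁻¹ * (g * d⁻¹) : G) : Γ)) = 0 := by
      have h1 := hlat.add (r v)⁻¹ (g * d⁻¹)
      have h2 := hlat.map_inv (r v)
      have h3 := hr (g * d⁻¹)
      rw [h1, h2, h3, neg_add_cancel]
    obtain ⟨f, hf, k, hk, d', hd', hd'0, he⟩ := hFc _ hx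
    refine ⟨r v * f, ⟨(f, v), ⟨hf, hdF⟩, rfl⟩, k, hk, d' * d, ?_, ?_, ?_⟩
    · intro k' hk'
      rw [mul_assoc, (hD d).1 hdD k' hk', ← mul_assoc, hd' k' hk', mul_assoc]
    · show L₂ (L (c ((d' * d : G) : Γ))) = 0
      have h1 := hlat.add d' d
      have h2 : L (c d') = 0 := hd'0
      rw [h1, map_add, h2, _root_.map_zero, zero_add, ← LinearMap.mem_ker, hker]
      exact hdW
    · calc g = r v * ((r v)⁻¹ * (g * d⁻¹)) * d := by group
        _ = r v * (f * k * d') * d := by rw [he]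
        _ = _ := by group
  have := hmin q₂ ⟨L₂.comp L, hL₂.comp hL, fun g v hv => by
    have h1 : L v ∈ W := by
      rw [← hker]; exact hv
    show L₂ (L (A g v)) = 0
    rw [hA₂, ← LinearMap.mem_ker, hker]
    exact hWst g _ h1, hlat₂, hgood₂⟩
  omega

end

end Vale.Agent.P284.H494.N
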