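import Vale.Agent.P284.H494.N.Norm1

/-!
# P284 (helper494), program N, module N3: the Zorn step
-/

open Function

noncomputable section

namespace Vale.Agent.P284.H494.N

open Vale.Agent.P272.K Vale.Agent.P284.H894.V Vale.Agent.P284.H213.Grp

/-- the preliminary data -/
structure PreN (Γ : Type) [Group Γ] (G : Subgroup Γ) (N : ℕ) (A : Γ →* (Cm N ≃ₗ[ℂ] Cm N))
    (c : Γ → Cm N) (K : Subgroup Γ) : Prop where
  dat : ADat Γ G N A c
  mem : ∀ g, g ∈ K ↔ g ∈ G ∧ c g = 0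
  fg : Group.FG K
  inf : Infinite K
  nvi : ¬ VirtIndicable K
  just : ∀ M : Subgroup Γ, M.Normal → M ≤ K → M ≠ ⊥ → (M.subgroupOf K).FiniteIndex

section
variable {Γ : Type} [Group Γ] {G : Subgroup Γ} {N : ℕ} {A : Γ →* (Cm N ≃ₗ[ℂ] Cm N)} {c : Γ → Cm N}

/-- **Step A**: Zorn, in the group `Γ`. -/
theorem exists_preN (h : ADat Γ G N A c) (K : Subgroup Γ) (hK : ∀ g, g ∈ K ↔ g ∈ G ∧ c g = 0)
    (hfg : Group.FG K) (hinf : Infinite K) (hnvi : ¬ VirtIndicable K) :
    ∃ (M : Subgroup Γ) (_ : M.Normal) (A₀ : Γ ⧸ M →* (Cm N ≃ₗ[ℂ] Cm N)) (c₀ : Γ ⧸ M → Cm N),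
      M ≤ K ∧ (∀ g : Γ, c₀ (g : Γ ⧸ M) = c g) ∧ (∀ (g : Γ) v, A₀ (g : Γ ⧸ M) v = A g v) ∧
      PreN (Γ ⧸ M) (G.map (QuotientGroup.mk' M)) N A₀ c₀ (K.map (QuotientGroup.mk' M)) := by
  classical
  obtain ⟨M, hMn, hMK, hMi, hmax⟩ := exists_max K hfg hinf
  have hKG : K ≤ G := fun g hg => ((hK g).1 hg).1
  obtain ⟨A₀, c₀, hc₀, hA₀, hdat⟩ := h.quot M (hMK.trans hKG) LinearMap.id surjective_id
    (fun g v hv => by
      have hv' : v = 0 := hv
      rw [hv', _root_.map_zero, _root_.map_zero]) h.lat (fun m hm => ((hK m).1 (hMK hm)).2)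
  have := hfg
  let π := QuotientGroup.mk' M
  have hπ : Surjective π := QuotientGroup.mk'_surjective M
  have hcomap : (K.map π).comap π = K := by
    rw [Subgroup.comap_map_eq, QuotientGroup.ker_mk']
    exact sup_eq_left.2 hMK
  have hcomapG : (G.map π).comap π = G := by
    rw [Subgroup.comap_map_eq, QuotientGroup.ker_mk']
    exact sup_eq_left.2 (hMK.trans hKG)
  let f : K →* K.map π := π.subgroupMap K
  have hf : Surjective f := π.subgroupMap_surjective K
  refine ⟨M, hMn, A₀, c₀, hMK, hc₀, fun g v => (hA₀ g v).symm, hdat, ?_, ?_, ?_, ?_, ?_⟩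
  · intro x
    obtain ⟨g, rfl⟩ := hπ x
    have h1 : π g ∈ K.map π ↔ g ∈ (K.map π).comap π := Iff.rfl
    have h2 : π g ∈ G.map π ↔ g ∈ (G.map π).comap π := Iff.rfl
    rw [h1, hcomap, hK]
    show g ∈ G ∧ c g = 0 ↔ π g ∈ G.map π ∧ c₀ (g : Γ ⧸ M) = 0
    rw [h2, hcomapG, hc₀]
    rfl
  · exact Group.fg_of_surjective hf
  · by_contra hfin
    rw [not_infinite_iff_finite] at hfin
    apply hMi
    have h1 : ((⊥ : Subgroup (Γ ⧸ M)).subgroupOf (K.map π)).FiniteIndex := by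
      rw [Subgroup.bot_subgroupOf]
      exact Subgroup.finiteIndex_of_finite_quotient
    have h2 := fi_comap π h1
    have h3 : (⊥ : Subgroup (Γ ⧸ M)).comap π = M := by
      rw [MonoidHom.comap_bot, QuotientGroup.ker_mk']
    rwa [h3, hcomap] at h2
  · intro hv
    exact hnvi (H731.VirtIndicable.of_surj f hf hv)
  · intro M' hM'n hM'K hM'0
    have h1 : (M'.comap π).Normal := hM'n.comap π
    have h2 : M ≤ M'.comap π := by
      intro g hg
      show π g ∈ M'
      have : π g = 1 := (QuotientGroup.eq_one_iff g).2 hg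
      rw [this]; exact M'.one_mem
    have h3 : M'.comap π ≤ K := by
      rw [← hcomap]; exact Subgroup.comap_mono hM'K
    have h4 : M'.comap π ≠ M := by
      intro he
      apply hM'0
      rw [eq_bot_iff]
      intro x hx
      obtain ⟨g, rfl⟩ := hπ x
      have : g ∈ M := by rw [← he]; exact hx
      exact (QuotientGroup.eq_one_iff g).2 this
    have h5 := fi_map π (hmax _ h1 h2 h3 h4)
    rwa [Subgroup.map_comap_eq_self_of_surjective hπ] at h5

end

end Vale.Agent.P284.H494.N
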