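import Vale.Agent.P284.H494.N.Norm2

/-!
# P284 (helper494), program N, module N3: the quotient by `ker c₂ ⊓ C(K)`
-/

open Function

noncomputable section

namespace Vale.Agent.P284.H494.N

open Vale.Agent.P272.K Vale.Agent.P284.H894.V Vale.Agent.P284.H213.Grp

/-- The normalised data, in the ambient group `Γ`: all fields of `NPkg` for `G`, except that `just` holds
for the normal subgroups of `Γ`. -/
structure NPkgA (Γ : Type) [Group Γ] (G : Subgroup Γ) (q : ℕ) (A : Γ →* (Cm q ≃ₗ[ℂ] Cm q))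
    (c : Γ → Cm q) (K : Subgroup Γ) : Prop where
  dat : ADat Γ G q A c
  le : K ≤ G
  normal : K.Normal
  fg : Group.FG K
  inf : Infinite K
  sub : ∀ g ∈ K, c g = 0
  fi : ∃ F : Set Γ, F.Finite ∧ (∀ f ∈ F, f ∈ G) ∧ ∀ g ∈ G, c g = 0 → ∃ f ∈ F, f⁻¹ * g ∈ K
  nvi : ¬ VirtIndicable K
  just : ∀ M : Subgroup Γ, M.Normal → M ≤ K → M ≠ ⊥ → (M.subgroupOf K).FiniteIndex
  cent : ∀ K' : Subgroup Γ, K' ≤ K → (K'.subgroupOf K).FiniteIndex →
    ∀ g ∈ G, c g = 0 → (∀ k ∈ K', g * k = k * g) → g = 1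
  central : ∀ g ∈ G, (∀ k ∈ K, g * k = k * g) → ∀ h ∈ G, g * h = h * g
  max : ∀ W : Submodule ℂ (Cm q),
    (∀ v ∈ W, v ∈ Submodule.span ℝ ({v | ∃ g ∈ G, (∀ k ∈ K, g * k = k * g) ∧ c g = v} ∩
      (W : Set (Cm q)))) → W = ⊥

section
variable {Γ : Type} [Group Γ] {G : Subgroup Γ} {N : ℕ} {A : Γ →* (Cm N ≃ₗ[ℂ] Cm N)} {c : Γ → Cm N}
  {K : Subgroup Γ}

/-- **Step C**: the quotient by `ker c₂ ⊓ C(K)`. -/
theorem npkg_ofN (h : PreN Γ G N A c K) {q : ℕ} (L : Cm N →ₗ[ℂ] Cm q) (hL : Surjective L)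
    (hst : ∀ g v, L v = 0 → L (A g v) = 0)
    (hlat : LatChar G q (fun g : G => L (c g)))
    (hgood : Good (K.subgroupOf G) (fun g : G => L (c g)))
    (hmax : ∀ W : Submodule ℂ (Cm q),
      (∀ v ∈ W, v ∈ Submodule.span ℝ ({v | ∃ g : G, (∀ k ∈ K.subgroupOf G, g * k = k * g) ∧
        L (c g) = v} ∩ (W : Set (Cm q)))) → W = ⊥) :
    ∃ (M : Subgroup Γ) (_ : M.Normal) (A₁ : Γ ⧸ M →* (Cm q ≃ₗ[ℂ] Cm q)) (c₁ : Γ ⧸ M → Cm q),
      M ≤ G ∧ (∀ g ∈ M, L (c g) = 0) ∧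
      (∀ g : Γ, c₁ (g : Γ ⧸ M) = L (c g)) ∧ (∀ (g : Γ) v, L (A g v) = A₁ (g : Γ ⧸ M) (L v)) ∧
      NPkgA (Γ ⧸ M) (G.map (QuotientGroup.mk' M)) q A₁ c₁ (K.map (QuotientGroup.mk' M)) := by
  classical
  have hGn := h.dat.normal
  have hKn := h.dat.ker_normal h.mem
  have hKG : K ≤ G := fun g hg => ((h.mem g).1 hg).1
  have := h.fg
  have := h.inf
  have hCn : (Subgroup.centralizer (K : Set Γ)).Normal := Subgroup.normal_centralizer
  have hcent : ∀ g, g ∈ Subgroup.centralizer (K : Set Γ) ↔ ∀ k ∈ K, g * k = k * g := fun g => by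
    rw [Subgroup.mem_centralizer_iff]
    exact ⟨fun h k hk => (h k hk).symm, fun h k hk => (h k hk).symm⟩
  -- the kernel of `L ∘ c` in `G`
  set Q : Subgroup Γ := hlat.ker.map G.subtype with hQ
  have hQm : ∀ g, g ∈ Q ↔ g ∈ G ∧ L (c g) = 0 := by
    intro g
    constructor
    · rintro ⟨x, hx, rfl⟩
      exact ⟨x.2, hx⟩
    · rintro ⟨hg, hg0⟩
      exact ⟨⟨g, hg⟩, hg0, rfl⟩
  have hQn : Q.Normal := by
    refine ⟨fun x hx g => ?_⟩
    rw [hQm] at hx ⊢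
    refine ⟨hGn.conj_mem x hx.1 g, ?_⟩
    rw [h.dat.conj g hx.1]
    exact hst g _ hx.2
  set M : Subgroup Γ := Q ⊓ Subgroup.centralizer (K : Set Γ) with hM
  have hMn : M.Normal := inferInstance
  have hMG : M ≤ G := fun g hg => ((hQm g).1 hg.1).1
  have hM0 : ∀ g ∈ M, L (c g) = 0 := fun g hg => ((hQm g).1 hg.1).2
  -- the centre of `K` is trivial
  have hcK : ∀ g ∈ K, (∀ k ∈ K, g * k = k * g) → g = 1 :=
    cent_trivial hKn h.fg h.inf h.nvi h.just K le_rfl hKn (by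
      rw [Subgroup.subgroupOf_self]; infer_instance)
  have hKM : ∀ g ∈ K, g ∈ M → g = 1 := fun g hg hgM => hcK g hg ((hcent g).1 hgM.2)
  obtain ⟨A₁, c₁, hc₁, hA₁, hdat₁⟩ := h.dat.quot M hMG L hL hst hlat hM0
  let π := QuotientGroup.mk' M
  have hπ : Surjective π := QuotientGroup.mk'_surjective M
  have hπ1 : ∀ g, π g = 1 ↔ g ∈ M := fun g => QuotientGroup.eq_one_iff g
  have hcπ : ∀ g, c₁ (π g) = L (c g) := hc₁
  have hcomapG : (G.map π).comap π = G := by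
    rw [Subgroup.comap_map_eq, QuotientGroup.ker_mk']
    exact sup_eq_left.2 hMG
  have hGπ : ∀ g, π g ∈ G.map π → g ∈ G := by
    intro g hg
    have h1 : g ∈ (G.map π).comap π := hg
    rwa [hcomapG] at h1
  let f : K →* K.map π := π.subgroupMap K
  have hf : Surjective f := π.subgroupMap_surjective K
  have hfi : Injective f := by
    rw [injective_iff_map_eq_one]
    intro x hx
    have h1 : π x = 1 := congrArg Subtype.val hx
    exact Subtype.ext (hKM x x.2 ((hπ1 _).1 h1))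
  let e : K ≃* K.map π := MulEquiv.ofBijective f ⟨hfi, hf⟩
  have hK₁n : (K.map π).Normal := hKn.map π hπ
  have hfg₁ : Group.FG (K.map π) := Group.fg_of_surjective hf
  have hinf₁ : Infinite (K.map π) := Infinite.of_injective f hfi
  have hnvi₁ : ¬ VirtIndicable (K.map π) := fun hv => h.nvi (virtInd_congr e hv)
  have hle₁ : K.map π ≤ G.map π := Subgroup.map_mono hKG
  have hsub₁ : ∀ g ∈ K.map π, c₁ g = 0 := by
    rintro _ ⟨g, hg, rfl⟩
    rw [hcπ, ((h.mem g).1 hg).2, _root_.map_zero]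
  have hjust₁ : ∀ M' : Subgroup (Γ ⧸ M), M'.Normal → M' ≤ K.map π → M' ≠ ⊥ →
      (M'.subgroupOf (K.map π)).FiniteIndex := by
    intro M' hM'n hM'K hM'0
    have := hM'n.comap π
    have h1 : (M'.comap π ⊓ K).Normal := inferInstance
    have h2 : M'.comap π ⊓ K ≠ ⊥ := by
      intro h0
      apply hM'0
      rw [eq_bot_iff]
      intro x hx
      obtain ⟨g, hg, rfl⟩ := hM'K hx
      have : g ∈ M'.comap π ⊓ K := ⟨hx, hg⟩
      rw [h0, Subgroup.mem_bot] at this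
      rw [this, _root_.map_one]; exact Subgroup.one_mem _
    have h3 := fi_map π (h.just _ h1 inf_le_right h2)
    have h4 : (M'.comap π ⊓ K).map π ≤ M' := by
      rintro _ ⟨g, hg, rfl⟩
      exact hg.1
    obtain ⟨F, hF, -, hFc⟩ := cover_of_fi h3
    exact fi_of_cover hF fun g hg => by
      obtain ⟨b, hb, hbg⟩ := hFc g hg
      exact ⟨b, hb, h4 hbg⟩
  -- the centralizer of `K₁` meets `ker c₁` trivially
  have hcent₁ : ∀ g, (∀ k ∈ K.map π, g * k = k * g) → ∀ x, π x = g → ∀ k ∈ K, x * k = k * x := by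
    rintro _ hg x rfl k hk
    have h1 := hg (π k) ⟨k, hk, rfl⟩
    have h2 : π (x * k * x⁻¹ * k⁻¹) = 1 := by
      rw [map_mul, map_mul, map_mul, h1, map_inv, map_inv]; group
    have h3 : x * k * x⁻¹ * k⁻¹ ∈ K := K.mul_mem (hKn.conj_mem k hk x) (K.inv_mem hk)
    have h4 := hKM _ h3 ((hπ1 _).1 h2)
    calc x * k = (x * k * x⁻¹ * k⁻¹) * (k * x) := by group
      _ = k * x := by rw [h4, one_mul]
  have hcc₁ : ∀ g ∈ G.map π, (∀ k ∈ K.map π, g * k = k * g) → c₁ g = 0 → g = 1 := by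
    intro g hgG hg hg0
    obtain ⟨x, rfl⟩ := hπ g
    rw [hπ1]
    refine ⟨?_, (hcent x).2 (hcent₁ _ hg x rfl)⟩
    rw [hcπ] at hg0
    exact (hQm x).2 ⟨hGπ x hgG, hg0⟩
  refine ⟨M, hMn, A₁, c₁, hMG, hM0, hc₁, hA₁, hdat₁, hle₁, hK₁n, hfg₁, hinf₁, hsub₁, ?_, hnvi₁,
    hjust₁, ?_, ?_, ?_⟩
  · -- finite index
    obtain ⟨F, hF, hFc⟩ := hgood
    refine ⟨(fun x : G => π x) '' F, hF.image _, ?_, fun g hgG hg => ?_⟩
    · rintro _ ⟨x, -, rfl⟩
      exact ⟨x, x.2, rfl⟩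
    obtain ⟨x, rfl⟩ := hπ g
    rw [hcπ] at hg
    obtain ⟨f', hf', k, hk, d, hd, hd0, he⟩ := hFc ⟨x, hGπ x hgG⟩ hg
    have hk' : (k : Γ) ∈ K := hk
    have h1 : π d = 1 := (hπ1 _).2 ⟨(hQm _).2 ⟨d.2, hd0⟩, (hcent _).2 fun k hk =>
      congrArg Subtype.val (hd ⟨k, hKG hk⟩ hk)⟩
    have he' : x = (f' : Γ) * k * d := congrArg Subtype.val he
    refine ⟨π f', ⟨f', hf', rfl⟩, ⟨k, hk', ?_⟩⟩
    show π (k : Γ) = (π f')⁻¹ * π x
    rw [he', map_mul, map_mul, h1]; group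
  · -- centralizers
    intro K' hK' hK'fi g hgG hg0 hgk
    obtain ⟨K'', hn'', hle'', hfi''⟩ := exists_normal_core hK₁n hfg₁ K' hK' hK'fi
    have htriv := cent_trivial hK₁n hfg₁ hinf₁ hnvi₁ hjust₁ K'' (hle''.trans hK') hn'' hfi''
    have hgk'' : ∀ k ∈ K'', g * k = k * g := fun k hk => hgk k (hle'' hk)
    -- `g` centralizes `K₁`
    have h1 : ∀ k ∈ K.map π, g * k = k * g := by
      intro k hk
      have h2 : g * k * g⁻¹ * k⁻¹ ∈ K.map π :=
        Subgroup.mul_mem _ (hK₁n.conj_mem k hk g) (Subgroup.inv_mem _ hk)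
      have h3 : ∀ z ∈ K'', (g * k * g⁻¹ * k⁻¹) * z = z * (g * k * g⁻¹ * k⁻¹) := by
        intro z hz
        have e1 : g * z = z * g := hgk'' z hz
        have hz' : k⁻¹ * z * k ∈ K'' := by
          have := hn''.conj_mem z hz k⁻¹
          rwa [inv_inv] at this
        have e2 : g * (k⁻¹ * z * k) = (k⁻¹ * z * k) * g := hgk'' _ hz'
        have e3 : g⁻¹ * (k⁻¹ * z * k) = (k⁻¹ * z * k) * g⁻¹ := by
          calc g⁻¹ * (k⁻¹ * z * k) = g⁻¹ * ((k⁻¹ * z * k) * g) * g⁻¹ := by group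
            _ = g⁻¹ * (g * (k⁻¹ * z * k)) * g⁻¹ := by rw [e2]
            _ = _ := by group
        calc (g * k * g⁻¹ * k⁻¹) * z = g * k * (g⁻¹ * (k⁻¹ * z * k)) * k⁻¹ := by group
          _ = g * k * ((k⁻¹ * z * k) * g⁻¹) * k⁻¹ := by rw [e3]
          _ = (g * z) * k * g⁻¹ * k⁻¹ := by group
          _ = (z * g) * k * g⁻¹ * k⁻¹ := by rw [e1]
          _ = _ := by group
      have h4 := htriv _ h2 h3
      calc g * k = (g * k * g⁻¹ * k⁻¹) * (k * g) := by group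
        _ = k * g := by rw [h4, one_mul]
    exact hcc₁ g hgG h1 hg0
  · -- the centralizer is central
    intro g hgG hg x hxG
    have h1 : c₁ (g * x * g⁻¹ * x⁻¹) = 0 := by
      have hgx : g * x * g⁻¹ ∈ G.map π := hdat₁.normal.conj_mem x hxG g
      have h4 : c₁ (x * x⁻¹) = c₁ x⁻¹ + c₁ x := hdat₁.add_of_mem hxG _
      rw [hdat₁.add_of_mem hgx, hdat₁.conj g hxG, hdat₁.one g hgG]
      rw [mul_inv_cancel, hdat₁.map_one] at h4
      exact h4.symm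
    have h2 : ∀ k ∈ K.map π, (g * x * g⁻¹ * x⁻¹) * k = k * (g * x * g⁻¹ * x⁻¹) := by
      intro k hk
      have hk' : x⁻¹ * k * x ∈ K.map π := by
        have := hK₁n.conj_mem k hk x⁻¹
        rwa [inv_inv] at this
      have e1 : g * k = k * g := hg k hk
      have e2 : g * (x⁻¹ * k * x) = (x⁻¹ * k * x) * g := hg _ hk'
      have e3 : g⁻¹ * (x⁻¹ * k * x) = (x⁻¹ * k * x) * g⁻¹ := by
        calc g⁻¹ * (x⁻¹ * k * x) = g⁻¹ * ((x⁻¹ * k * x) * g) * g⁻¹ := by group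
          _ = g⁻¹ * (g * (x⁻¹ * k * x)) * g⁻¹ := by rw [e2]
          _ = _ := by group
      calc (g * x * g⁻¹ * x⁻¹) * k = g * x * (g⁻¹ * (x⁻¹ * k * x)) * x⁻¹ := by group
        _ = g * x * ((x⁻¹ * k * x) * g⁻¹) * x⁻¹ := by rw [e3]
        _ = (g * k) * x * g⁻¹ * x⁻¹ := by group
        _ = (k * g) * x * g⁻¹ * x⁻¹ := by rw [e1]
        _ = _ := by group
    have hmem : g * x * g⁻¹ * x⁻¹ ∈ G.map π :=
      Subgroup.mul_mem _ (Subgroup.mul_mem _ (Subgroup.mul_mem _ hgG hxG) (Subgroup.inv_mem _ hgG))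
        (Subgroup.inv_mem _ hxG)
    have h3 := hcc₁ _ hmem h2 h1
    calc g * x = (g * x * g⁻¹ * x⁻¹) * (x * g) := by group
      _ = x * g := by rw [h3, one_mul]
  · -- maximality
    intro W hW
    refine hmax W fun v hv => ?_
    have h1 : {v | ∃ g ∈ G.map π, (∀ k ∈ K.map π, g * k = k * g) ∧ c₁ g = v} ⊆
        {v | ∃ g : G, (∀ k ∈ K.subgroupOf G, g * k = k * g) ∧ L (c g) = v} := by
      rintro _ ⟨_, ⟨x, hx, rfl⟩, hg, rfl⟩
      refine ⟨⟨x, hx⟩, fun k hk => Subtype.ext ?_, (hcπ x).symm⟩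
      exact hcent₁ _ hg x rfl k hk
    exact Submodule.span_mono (Set.inter_subset_inter_left _ h1) (hW v hv)

end

end Vale.Agent.P284.H494.N
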