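import Vale.Agent.P284.H213.Grp.Norm
import Vale.Agent.P284.H213.T3.NormK

/-!
# P284 (helper494), program N, module N3: the normalisation stable under a larger group

`Γ` is the group of the covering `E → X`, `G` a normal subgroup of finite index, `c : Γ → ℂᴺ` a cocycle
for the linear representation `A` of `Γ`, trivial on `G` (so `c` is additive on `G`), `K = ker c|G`.
-/

open Function

noncomputable section

namespace Vale.Agent.P284.H494.N

open Vale.Agent.P272.K Vale.Agent.P284.H894.V Vale.Agent.P284.H213.Grp

/-- The affine data of the covering: `F (g • y) = A g (F y) + c g`. -/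
structure ADat (Γ : Type) [Group Γ] (G : Subgroup Γ) (N : ℕ) (A : Γ →* (Cm N ≃ₗ[ℂ] Cm N))
    (c : Γ → Cm N) : Prop where
  normal : G.Normal
  fi : G.FiniteIndex
  coc : ∀ g h, c (g * h) = A g (c h) + c g
  one : ∀ g ∈ G, A g = 1
  lat : LatChar G N (fun g : G => c g)

end Vale.Agent.P284.H494.N
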