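import Vale.Agent.P284.H494.N.SumV
import Vale.Agent.P284.H625.N.LeafP
import Vale.Agent.P284.H625.N.SumV

/-!
# P284 (helper494), program N, module N7a: the total form `sumV G v` is a leaf form, without the
invariance of the norm of `v`
-/

open scoped Manifold ContDiff Topology InnerProductSpace
open Filter Set Metric

noncomputable section

namespace Vale.Agent.P284.H494.N

open Vale.Agent.P272.K Vale.Agent.P284.H894 Vale.Agent.P284.H894.G Vale.Agent.P284.H894.V
  Vale.Agent.P284.H894.W Vale.Agent.P284.H573 Vale.Agent.P284.H619 Vale.Agent.P284.H625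
  Vale.Agent.P284.H378 Vale.Agent.P284.H625.N

section
variable {n q r m : ℕ} {X E Γ W H : Type} [TopologicalSpace X] [ChartedSpace (Cm n) X]
  [TopologicalSpace E] [Group Γ] [MulAction Γ E]
  [NormedAddCommGroup W] [InnerProductSpace ℂ W] [NormedAddCommGroup H] [InnerProductSpace ℂ H]
  {p : E → X} {F : E → Cm q} {Θ : E → Chart n X → (Cm n →L[ℂ] W)} {G : Subgroup Γ}

/-- **N7a.** The total form of a leaf form of full rank for the normal subgroup `G` of finite index
(the norm of `v` is not assumed to be invariant along the fibres of `p`). -/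
theorem leafP_sumV [CompleteSpace W] [CompleteSpace H] [IsManifold 𝓘(ℂ, Cm n) ω X]
    (hG : IsGalois Γ p) [G.Normal] [Fintype (Γ ⧸ G)] (hF : HolE n p F)
    {A : Γ → (Cm q ≃ₗ[ℂ] Cm q)} {a : Γ → Cm q} (hA : ∀ γ y, F (γ • y) = A γ (F y) + a γ)
    (hch : ∀ y e e', Reg (n := n) p F y → At e (p y) → At e' (p y) → ∀ ξ ∈ VS p F y e,
      Θ y e ξ = Θ y e' (fderiv ℂ (fun z => e' (e.symm z)) (e (p y)) ξ))
    {π : Γ →* (W ≃ₗᵢ[ℂ] W)} (hequi : ∀ γ y e, Reg (n := n) p F y → At e (p y) →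
      ∀ ξ ∈ VS p F y e, Θ (γ • y) e ξ = π γ (Θ y e ξ))
    {v : E → Chart n X → (Fin (q + r) → Cm n) → H} {U : G → (H →ₗᵢ[ℂ] H)}
    {N : Cm 0 →L[ℂ] Cm q} {𝒢 : Set E}
    (hL : LeafP (G := G) (q + r) p F m v U (π.comp G.subtype) Θ N 𝒢) :
    LeafP (G := G) (q + r) p F m (sumV G v) (fun g : G => piU fun i => U (coc G (g : Γ) i))
      (π.comp G.subtype) Θ N (⋂ i, (fun y => tr G i • y) ⁻¹' 𝒢) := by
  have hps : ∀ (g : Γ) y, p (g • y) = p y := fun g y => ((hG.orb y _).2 ⟨g, rfl⟩).symm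
  refine ⟨PForm.sum hG hL.form, hL.dim, hL.m_pos, hL.Ninj, ?_, ?_,
    thin_iInter (fun i => hG.cont _) (fun i y => hps _ y) hL.good, ?_, ?_⟩
  · intro g y e he ξ
    ext i
    show v (tr G i • (g : Γ) • y) e ξ = U (coc G (g : Γ) i) (v (tr G i • y) e ξ)
    rw [tr_smul, ← hL.equi _ _ e (by rw [hps]; exact he)]
    rfl
  · intro g hg y e he ξ
    ext i
    show v (tr G i • (g : Γ) • y) e ξ = v (tr G i • y) e ξ
    have h1 : π (g : Γ) = 1 := hg
    have h2 : (π.comp G.subtype) (coc G (g : Γ) i) = 1 := by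
      show π (coc G (g : Γ) i : Γ) = 1
      rw [coc_mem, map_mul, map_mul, h1, mul_one, ← map_mul, mul_inv_cancel, map_one]
    rw [tr_smul]
    exact hL.triv _ h2 (tr G i • y) e (by rw [hps]; exact he) ξ
  · intro g y hy
    rw [mem_iInter] at hy ⊢
    intro i
    show tr G i • (g : Γ) • y ∈ 𝒢
    rw [tr_smul]
    exact hL.inv (coc G (g : Γ) i) _ (hy i)
  · intro y hy
    rw [mem_iInter] at hy
    have hyG : y ∈ 𝒢 := by
      have h1 : (⟨_, tr_one_mem⟩ : G) • y ∈ 𝒢 := hy ((1 : Γ) : Γ ⧸ G)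
      have h2 := hL.inv (⟨_, tr_one_mem⟩ : G)⁻¹ _ h1
      rwa [inv_smul_smul] at h2
    exact lc_sum (Γ := G) (ι := Γ ⧸ G) (σ := fun i y => tr G i • y)
      (φ := fun i g => coc G (g : Γ) i) hG.cov (fun g y => hps _ y) hF hch
      hL.form.change hL.equi hL.chart (fun i => hG.cont _) (fun i y => hps _ y)
      (A := fun i => (A (tr G i)).toContinuousLinearEquiv) (a := fun i => a (tr G i))
      (fun i y => hA _ _) (V := fun i => (π (tr G i)).toLinearIsometry)
      (fun i y e h1 h2 ξ h3 => hequi _ y e h1 h2 ξ h3) (fun i g y => tr_smul i g y)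
      ((1 : Γ) : Γ ⧸ G) ⟨_, tr_one_mem⟩ (fun y => rfl) hyG hy

end

end Vale.Agent.P284.H494.N
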