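import Vale.Agent.P284.H494.N.Leaf3
import Vale.Agent.P284.H625.N.SumS

/-!
# P284 (helper494), program N, module N7a: the total form `sumV G v` is a leaf form
-/

open scoped Manifold ContDiff Topology InnerProductSpace
open Filter Set Metric

noncomputable section

namespace Vale.Agent.P284.H494.N

open Vale.Agent.P272.K Vale.Agent.P284.H894 Vale.Agent.P284.H894.G Vale.Agent.P284.H894.V
  Vale.Agent.P284.H894.W Vale.Agent.P284.H573 Vale.Agent.P284.H619 Vale.Agent.P284.H625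
  Vale.Agent.P284.H378 Vale.Agent.P284.H625.N

section
variable {n q r m : ℕ} {X E Γ W H : Type} [TopologicalSpace X] [ChartedSpace (Cm n) X]
  [TopologicalSpace E] [Group Γ] [MulAction Γ E]
  [NormedAddCommGroup W] [InnerProductSpace ℂ W] [NormedAddCommGroup H] [InnerProductSpace ℂ H]
  {p : E → X} {F : E → Cm q} {Θ : E → Chart n X → (Cm n →L[ℂ] W)} {G : Subgroup Γ}

omit [TopologicalSpace E] in
/-- the elements of `G` are conjugated by the representatives -/
theorem tr_smul [G.Normal] (i : Γ ⧸ G) (g : G) (y : E) :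
    tr G i • ((g : Γ) • y) = (coc G (g : Γ) i : Γ) • (tr G i • y) := by
  rw [smul_smul, smul_smul, coc_mem]
  congr 1
  group

/-- the representative of the trivial coset -/
theorem tr_one_mem : tr G ((1 : Γ) : Γ ⧸ G) ∈ G := by
  have h1 := mk_tr G ((1 : Γ) : Γ ⧸ G)
  rw [QuotientGroup.eq] at h1
  have h2 := G.inv_mem h1
  rwa [mul_one, inv_inv] at h2

/-- **N7a.** The total form of a leaf form of full rank for the normal subgroup `G` of finite index. -/
theorem leafE_sumV [CompleteSpace W] [CompleteSpace H] [IsManifold 𝓘(ℂ, Cm n) ω X]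
    (hG : IsGalois Γ p) [G.Normal] [Fintype (Γ ⧸ G)] (hF : HolE n p F)
    {A : Γ → (Cm q ≃ₗ[ℂ] Cm q)} {a : Γ → Cm q} (hA : ∀ γ y, F (γ • y) = A γ (F y) + a γ)
    (hch : ∀ y e e', Reg (n := n) p F y → At e (p y) → At e' (p y) → ∀ ξ ∈ VS p F y e,
      Θ y e ξ = Θ y e' (fderiv ℂ (fun z => e' (e.symm z)) (e (p y)) ξ))
    {π : Γ →* (W ≃ₗᵢ[ℂ] W)} (hequi : ∀ γ y e, Reg (n := n) p F y → At e (p y) →
      ∀ ξ ∈ VS p F y e, Θ (γ • y) e ξ = π γ (Θ y e ξ))
    {v : E → Chart n X → (Fin (q + r) → Cm n) → H} {U : G → (H →ₗᵢ[ℂ] H)}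
    {N : Cm 0 →L[ℂ] Cm q} {𝒢 : Set E}
    (hL : LeafE (Γ := G) (q + r) p F m v U (π.comp G.subtype) Θ N 𝒢) :
    LeafE (Γ := G) (q + r) p F m (sumV G v) (fun g : G => piU fun i => U (coc G (g : Γ) i))
      (π.comp G.subtype) Θ N (⋂ i, (fun y => tr G i • y) ⁻¹' 𝒢) := by
  refine leafE_sum (Γ := G) (ι := Γ ⧸ G) (σ := fun i y => tr G i • y)
    (φ := fun i g => coc G (g : Γ) i) hG.cov (fun g y => ((hG.orb y _).2 ⟨(g : Γ), rfl⟩).symm) hF hch hL
    (fun i => hG.cont _) (fun i y => ((hG.orb y _).2 ⟨_, rfl⟩).symm)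
    (A := fun i => (A (tr G i)).toContinuousLinearEquiv) (a := fun i => a (tr G i))
    (fun i y => hA _ _) (V := fun i => (π (tr G i)).toLinearIsometry)
    (fun i y e h1 h2 ξ h3 => hequi _ y e h1 h2 ξ h3) (fun i g y => tr_smul i g y) ?_
    ((1 : Γ) : Γ ⧸ G) ⟨_, tr_one_mem⟩ (fun y => rfl)
  intro i g hg
  have h1 : π (g : Γ) = 1 := hg
  show π (coc G (g : Γ) i : Γ) = 1
  rw [coc_mem, map_mul, map_mul, h1, mul_one, ← map_mul, mul_inv_cancel, map_one]

end

end Vale.Agent.P284.H494.N
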